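import Vale.Agent.P022.H964.Thx
import Vale.Agent.P022.H933.Ext2
import Vale.Agent.P022.H761.Thi

/-!
# P022-X, [LIFT2] part (b): theta series of ideals at level `N 2^s`
-/

open UpperHalfPlane hiding I
open Filter Topology Matrix.SpecialLinearGroup CongruenceSubgroup Complex
open scoped MatrixGroups ModularForm Manifold Real NumberField

noncomputable section

namespace Vale.Agent.P022.H964

open Vale.Agent.P022 Vale.Agent.P022.X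

/-! ## The law for binary forms -/

theorem th_smul (a b c : ℤ) (D κ : ℕ) (z : ℂ) (f : ℤ × ℤ → ℂ) (w : ℂ) :
    th a b c D κ (fun v => z * f v) w = z * th a b c D κ f w := by
  simp only [th, thT]
  rw [← tsum_mul_left]
  refine tsum_congr fun v => ?_
  ring

theorem slash_lawG (hL : LAWGStmt) {a b c : ℤ} {D : ℕ} (ha : 0 < a) (hD : 0 < D)
    (h : b ^ 2 - 4 * a * c = -(D : ℤ)) (κ : ℕ) {m : ℕ} (hm : 0 < m) {f : ℤ × ℤ → ℂ}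
    (hf : Per m f) (z : ℂ) (γ : SL(2, ℤ)) (hγ : ((D * m ^ 2 : ℕ) : ℤ) ∣ γ 1 0)
    (hodd : Odd (γ 1 1)) (τ : ℍ) :
    ((fun τ : ℍ => z * th a b c D κ f τ) ∣[((κ + 1 : ℕ) : ℤ)] γ) τ =
      chiD D (γ 1 1) * (z * th a b c D κ (fun v => f ((γ 1 1) • v)) τ) := by
  have hdet : γ 0 0 * γ 1 1 - γ 0 1 * γ 1 0 = 1 := by
    have := γ.det_coe
    rwa [Matrix.det_fin_two] at this
  have h1 := hL a b c D ha hD h κ m hm f hf (γ 0 0) (γ 0 1) (γ 1 0) (γ 1 1) hdet hγ hodd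
    (τ : ℂ) τ.im_pos
  have hden : denom γ τ = (γ 1 0 : ℂ) * τ + γ 1 1 := by
    rw [ModularGroup.denom_apply]
  have h2 : ((γ • τ : ℍ) : ℂ) = ((γ 0 0 : ℂ) * τ + γ 0 1) / ((γ 1 0 : ℂ) * τ + γ 1 1) := by
    rw [UpperHalfPlane.coe_specialLinearGroup_apply]
    simp
  have hne : (γ 1 0 : ℂ) * τ + γ 1 1 ≠ 0 := by
    rw [← hden]; exact UpperHalfPlane.denom_ne_zero _ _
  rw [ModularForm.SL_slash_apply, hden]
  rw [h2, h1, zpow_neg, zpow_natCast]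
  field_simp

theorem chiD_sq {D : ℕ} {d : ℤ} (hd : d ≠ 0) (h : IsCoprime d (D : ℤ)) :
    chiD D d = 1 ∨ chiD D d = -1 := by
  have h1 : jacobiSym (-(D : ℤ)) d.natAbs = 1 ∨ jacobiSym (-(D : ℤ)) d.natAbs = -1 := by
    refine jacobiSym.eq_one_or_neg_one ?_
    have := Int.isCoprime_iff_gcd_eq_one.1 h
    simp only [Int.gcd, Int.natAbs_neg, Int.natAbs_natCast] at this ⊢
    rwa [Nat.gcd_comm]
  rw [chiD]
  rcases lt_or_gt_of_ne hd with h' | h'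
  · rw [Int.sign_eq_neg_one_of_neg h']
    rcases h1 with h1 | h1 <;> rw [h1] <;> simp
  · rw [Int.sign_eq_one_of_pos h']
    rcases h1 with h1 | h1 <;> rw [h1] <;> simp

/-! ## Uniformity -/

/-- Uniformity over `SL(2, ℤ)`, invariance up to sign. -/
theorem unif_sign {O : Subring ℂ} {F : ℍ → ℂ} {k : ℤ} (Γ : Subgroup SL(2, ℤ)) [Γ.FiniteIndex]
    (hinv : ∀ δ ∈ Γ, F ∣[k] δ = F ∨ F ∣[k] δ = -F)
    (h : ∀ γ : SL(2, ℤ), ∃ R : ℕ, 0 < R ∧ ∃ B, H220.Ex (dn B O) R (F ∣[k] γ)) :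
    ∃ R : ℕ, 0 < R ∧ ∃ B, ∀ γ : SL(2, ℤ), H220.Ex (dn B O) R (F ∣[k] γ) := by
  classical
  have hfin : Finite (SL(2, ℤ) ⧸ Γ) := Subgroup.finite_quotient_of_finiteIndex
  have := Fintype.ofFinite (SL(2, ℤ) ⧸ Γ)
  choose R hR B hB using h
  refine ⟨∏ x : SL(2, ℤ) ⧸ Γ, R x.out⁻¹, Finset.prod_pos fun x _ => hR _,
    ∑ x : SL(2, ℤ) ⧸ Γ, B x.out⁻¹, fun γ => ?_⟩
  obtain ⟨x, hx⟩ : ∃ x : SL(2, ℤ) ⧸ Γ, QuotientGroup.mk (γ⁻¹) = x := ⟨_, rfl⟩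
  have h1 : (γ⁻¹)⁻¹ * x.out ∈ Γ := by
    rw [← QuotientGroup.eq, hx]
    exact (Quotient.out_eq x).symm
  rw [inv_inv] at h1
  have h4 := hB x.out⁻¹
  have h2 : H220.Ex (dn (B x.out⁻¹) O) (R x.out⁻¹) (F ∣[k] γ) := by
    have h3 : F ∣[k] x.out⁻¹ = (F ∣[k] (γ * x.out)⁻¹) ∣[k] γ := by
      rw [← SlashAction.slash_mul]
      congr 1
      group
    rcases hinv _ (Γ.inv_mem h1) with h5 | h5
    · rw [h3, h5] at h4
      exact h4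
    · rw [h3, h5, SlashAction.neg_slash] at h4
      refine H220.Ex.congr (fun τ => ?_) h4.neg
      simp
  have h5 : B x.out⁻¹ ≤ ∑ x : SL(2, ℤ) ⧸ Γ, B x.out⁻¹ :=
    Finset.single_le_sum (f := fun x : SL(2, ℤ) ⧸ Γ => B x.out⁻¹) (fun _ _ => Nat.zero_le _)
      (Finset.mem_univ x)
  have h6 : ∏ x : SL(2, ℤ) ⧸ Γ, R x.out⁻¹ =
      R x.out⁻¹ * ∏ y ∈ Finset.univ.erase x, R y.out⁻¹ :=
    (Finset.mul_prod_erase _ (fun x : SL(2, ℤ) ⧸ Γ => R x.out⁻¹) (Finset.mem_univ x)).symm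
  rw [h6]
  exact (h2.mono (dn_mono h5 O)).up (hR _) (Finset.prod_pos fun y _ => hR _)

theorem mem_VI' (a b c : ℤ) (D κ : ℕ) {z : ℂ} (hz : IsAlgebraic ℚ z) {m : ℕ} (hm : 0 < m)
    {f : ℤ × ℤ → ℂ} (hf : Per m f) (hi : ∀ v, IsIntegral ℤ (f v)) :
    (fun τ : ℍ => z * th a b c D κ f τ) ∈ VI a b c D κ :=
  ⟨z, 1, f, m, hz, one_pos, hm, hf, hi, fun τ => by simp [Th]⟩

theorem unif_th (hP : POStmt) (hL : LAWGStmt) {a b c : ℤ} {D : ℕ} (ha : 0 < a) (hD : 0 < D)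
    (hdisc : b ^ 2 - 4 * a * c = -(D : ℤ)) (κ : ℕ) {z : ℂ} (hz : IsAlgebraic ℚ z) {m : ℕ}
    (hm : 0 < m) {f : ℤ × ℤ → ℂ} (hf : Per m f) (hi : ∀ v, IsIntegral ℤ (f v))
    {O : Subring ℂ} (hO1 : ∀ x : ℂ, IsIntegral ℤ x → x ∈ O)
    (hO2 : ∀ n : ℕ, Odd n → (n : ℂ)⁻¹ ∈ O) :
    ∃ R : ℕ, 0 < R ∧ ∃ B, ∀ γ : SL(2, ℤ),
      H220.Ex (dn B O) R ((fun τ : ℍ => z * th a b c D κ f τ) ∣[((κ + 1 : ℕ) : ℤ)] γ) := by
  have hne : NeZero (2 * (D * m ^ 2)) := ⟨by positivity⟩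
  refine unif_sign (Gamma1 (2 * (D * m ^ 2))) (fun δ hδ => ?_) (fun γ => ?_)
  · rw [Gamma1_mem] at hδ
    obtain ⟨-, h11, h10⟩ := hδ
    have h10' : ((2 * (D * m ^ 2) : ℕ) : ℤ) ∣ δ 1 0 := (ZMod.intCast_zmod_eq_zero_iff_dvd _ _).1 h10
    have h11' : ((2 * (D * m ^ 2) : ℕ) : ℤ) ∣ δ 1 1 - 1 := by
      rw [← ZMod.intCast_zmod_eq_zero_iff_dvd]
      push_cast
      rw [h11, sub_self]
    have hodd : Odd (δ 1 1) := by
      obtain ⟨t, ht⟩ := h11'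
      refine ⟨D * m ^ 2 * t, ?_⟩
      push_cast at ht
      linarith
    have h10'' : ((D * m ^ 2 : ℕ) : ℤ) ∣ δ 1 0 := dvd_trans ⟨2, by push_cast; ring⟩ h10'
    have hcop : IsCoprime (δ 1 1) (D : ℤ) := by
      obtain ⟨t, ht⟩ := h11'
      refine ⟨1, -(2 * m ^ 2 * t), ?_⟩
      push_cast at ht
      linarith
    have hF : (fun v => f ((δ 1 1) • v)) = f := by
      funext v
      obtain ⟨y, hy⟩ := dvd_trans (⟨2 * (D : ℤ) * m, by push_cast; ring⟩ :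
        (m : ℤ) ∣ ((2 * (D * m ^ 2) : ℕ) : ℤ)) h11'
      have h5 : (δ 1 1) • v = v + (m : ℤ) • (y • v) := by
        rw [smul_smul, ← hy, sub_smul, one_smul]
        abel
      rw [h5, hf]
    have hodd0 : δ 1 1 ≠ 0 := by
      rintro h0
      rw [h0] at hodd
      exact absurd hodd (by decide)
    rcases chiD_sq hodd0 hcop with h | h
    · left
      funext τ
      rw [slash_lawG hL ha hD hdisc κ hm hf z δ h10'' hodd τ, h, hF]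
      simp
    · right
      funext τ
      rw [slash_lawG hL ha hD hdisc κ hm hf z δ h10'' hodd τ, h, hF]
      simp
  · have := ex_VI ha hD hdisc κ hO1 hO2
      (VI_all hP ha hD hdisc κ (mem_VI' a b c D κ hz hm hf hi) γ)
    simpa using this

/-- the indicator function of a residue class -/
def cls (m : ℕ) (i j : Fin m) (v : ℤ × ℤ) : ℂ :=
  if (m : ℤ) ∣ v.1 - i.1 ∧ (m : ℤ) ∣ v.2 - j.1 then 1 else 0

theorem per_cls (m : ℕ) (i j : Fin m) : Per m (cls m i j) := by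
  intro v w
  have h1 : (m : ℤ) ∣ (v + (m : ℤ) • w).1 - i.1 ↔ (m : ℤ) ∣ v.1 - i.1 := by
    rw [show (v + (m : ℤ) • w).1 - i.1 = (v.1 - i.1) + m * w.1 by
      simp only [Prod.fst_add, Prod.smul_fst, smul_eq_mul]; ring]
    exact dvd_add_left (dvd_mul_right _ _)
  have h2 : (m : ℤ) ∣ (v + (m : ℤ) • w).2 - j.1 ↔ (m : ℤ) ∣ v.2 - j.1 := by
    rw [show (v + (m : ℤ) • w).2 - j.1 = (v.2 - j.1) + m * w.2 by
      simp only [Prod.snd_add, Prod.smul_snd, smul_eq_mul]; ring]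
    exact dvd_add_left (dvd_mul_right _ _)
  simp only [cls, h1, h2]

theorem int_cls (m : ℕ) (i j : Fin m) (v : ℤ × ℤ) : IsIntegral ℤ (cls m i j v) := by
  unfold cls
  split_ifs
  · exact isIntegral_one
  · exact isIntegral_zero

theorem sum_cls {m : ℕ} (hm : 0 < m) {f : ℤ × ℤ → ℂ} (hf : Per m f) (v : ℤ × ℤ) :
    f v = ∑ i : Fin m, ∑ j : Fin m, f ((i.1 : ℤ), (j.1 : ℤ)) * cls m i j v := by
  have hm' : (0 : ℤ) < m := by exact_mod_cast hm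
  have key : ∀ x : ℤ, ∃ i : Fin m, ∀ k : Fin m, (m : ℤ) ∣ x - k.1 ↔ k = i := by
    intro x
    refine ⟨⟨(x % m).toNat, ?_⟩, fun k => ?_⟩
    · have h1 := Int.emod_lt_of_pos x hm'
      have h2 := Int.emod_nonneg x hm'.ne'
      omega
    · have h1 := Int.emod_lt_of_pos x hm'
      have h2 := Int.emod_nonneg x hm'.ne'
      have h3 := k.2
      constructor
      · intro h
        have h4 : x % m = (k.1 : ℤ) % m := by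
          rw [Int.emod_eq_emod_iff_emod_sub_eq_zero]
          exact Int.emod_eq_zero_of_dvd h
        have h5 : (k.1 : ℤ) % m = k.1 := Int.emod_eq_of_lt (by positivity) (by exact_mod_cast h3)
        rw [h5] at h4
        ext
        show k.1 = (x % m).toNat
        omega
      · intro h
        subst h
        show (m : ℤ) ∣ x - ((x % m).toNat : ℤ)
        rw [Int.toNat_of_nonneg h2]
        exact Int.dvd_self_sub_emod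
  obtain ⟨i, hi⟩ := key v.1
  obtain ⟨j, hj⟩ := key v.2
  rw [Finset.sum_eq_single i, Finset.sum_eq_single j]
  · have h1 : cls m i j v = 1 := by
      rw [cls, if_pos ⟨(hi i).2 rfl, (hj j).2 rfl⟩]
    rw [h1, mul_one]
    obtain ⟨s, hs⟩ := (hi i).2 rfl
    obtain ⟨t, ht⟩ := (hj j).2 rfl
    rw [← hf ((i.1 : ℤ), (j.1 : ℤ)) (s, t)]
    congr 1
    ext
    · show v.1 = (i.1 : ℤ) + m * s
      linarith
    · show v.2 = (j.1 : ℤ) + m * t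
      linarith
  · intro k _ hk
    rw [cls, if_neg, mul_zero]
    rintro ⟨-, h⟩
    exact hk ((hj k).1 h)
  · intro h; exact absurd (Finset.mem_univ _) h
  · intro k _ hk
    refine Finset.sum_eq_zero fun l _ => ?_
    rw [cls, if_neg, mul_zero]
    rintro ⟨h, -⟩
    exact hk ((hi k).1 h)
  · intro h; exact absurd (Finset.mem_univ _) h

theorem th_sum {a b c : ℤ} {D : ℕ} (ha : 0 < a) (hD : 0 < D)
    (hdisc : b ^ 2 - 4 * a * c = -(D : ℤ)) (κ : ℕ) {m : ℕ} (hm : 0 < m) {f : ℤ × ℤ → ℂ}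
    (hf : Per m f) {w : ℂ} (hw : 0 < w.im) :
    th a b c D κ f w = ∑ i : Fin m, ∑ j : Fin m, f ((i.1 : ℤ), (j.1 : ℤ)) *
      th a b c D κ (cls m i j) w := by
  have h1 : ∀ i j, HasSum (fun v => f ((i : Fin m).1, (j : Fin m).1) *
      thT a b c D κ (cls m i j) w v) (f ((i.1 : ℤ), (j.1 : ℤ)) * th a b c D κ (cls m i j) w) :=
    fun i j => (summable_thT ha hD hdisc κ hm (per_cls m i j) hw).hasSum.mul_left _
  have h2 := hasSum_sum (s := Finset.univ) fun (i : Fin m) _ =>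
    hasSum_sum (s := Finset.univ) fun (j : Fin m) _ => h1 i j
  rw [← h2.tsum_eq, th]
  refine tsum_congr fun v => ?_
  rw [thT, sum_cls hm hf v, Finset.sum_mul, Finset.sum_mul]
  refine Finset.sum_congr rfl fun i _ => ?_
  rw [Finset.sum_mul, Finset.sum_mul]
  refine Finset.sum_congr rfl fun j _ => ?_
  rw [thT]
  ring

theorem slash_lin {m : ℕ} {k : ℤ} {F : ℍ → ℂ} {c : Fin m → Fin m → ℂ}
    {G : Fin m → Fin m → ℍ → ℂ} (h : ∀ τ, F τ = ∑ i, ∑ j, c i j * G i j τ) (γ : SL(2, ℤ)) (τ : ℍ) :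
    (F ∣[k] γ) τ = ∑ i, ∑ j, c i j * (G i j ∣[k] γ) τ := by
  simp only [ModularForm.SL_slash_apply, h, Finset.sum_mul, mul_assoc]

theorem int_mul_dn {B : ℕ} {O : Subring ℂ} (n : ℤ) : ∀ a ∈ dn B O, (n : ℂ) * a ∈ dn B O := by
  intro a ha
  rw [mem_dn] at ha ⊢
  rw [show (2 : ℂ) ^ B * (n * a) = n * (2 ^ B * a) by ring]
  exact O.mul_mem (intCast_mem O n) ha

/-- Expansions at all cusps, uniformly in `f`. -/
theorem unif_all (hP : POStmt) (hL : LAWGStmt) {a b c : ℤ} {D : ℕ} (ha : 0 < a) (hD : 0 < D)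
    (hdisc : b ^ 2 - 4 * a * c = -(D : ℤ)) (κ : ℕ) {z : ℂ} (hz : IsAlgebraic ℚ z) {m : ℕ}
    (hm : 0 < m) {O : Subring ℂ} (hO1 : ∀ x : ℂ, IsIntegral ℤ x → x ∈ O)
    (hO2 : ∀ n : ℕ, Odd n → (n : ℂ)⁻¹ ∈ O) :
    ∃ R : ℕ, 0 < R ∧ ∃ B, ∀ f : ℤ × ℤ → ℂ, Per m f → (∀ v, ∃ n : ℤ, f v = n) → ∀ γ : SL(2, ℤ),
      H220.Ex (dn B O) R ((fun τ : ℍ => z * th a b c D κ f τ) ∣[((κ + 1 : ℕ) : ℤ)] γ) := by
  classical
  have h := fun i j : Fin m =>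
    unif_th hP hL ha hD hdisc κ hz hm (per_cls m i j) (int_cls m i j) hO1 hO2
  choose R hR B hB using h
  refine ⟨∏ i, ∏ j, R i j, Finset.prod_pos fun i _ => Finset.prod_pos fun j _ => hR i j,
    ∑ i, ∑ j, B i j, fun f hf hfi γ => ?_⟩
  have hF : ∀ τ : ℍ, z * th a b c D κ f τ = ∑ i : Fin m, ∑ j : Fin m,
      f ((i.1 : ℤ), (j.1 : ℤ)) * (z * th a b c D κ (cls m i j) τ) := by
    intro τ
    rw [th_sum ha hD hdisc κ hm hf τ.im_pos, Finset.mul_sum]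
    refine Finset.sum_congr rfl fun i _ => ?_
    rw [Finset.mul_sum]
    refine Finset.sum_congr rfl fun j _ => ?_
    ring
  refine H220.Ex.congr (fun τ => slash_lin (F := fun τ : ℍ => z * th a b c D κ f τ)
    (G := fun i j (τ : ℍ) => z * th a b c D κ (cls m i j) τ) hF γ τ) ?_
  refine H220.Ex.sum _ fun i _ => H220.Ex.sum _ fun j _ => ?_
  have h1 : B i j ≤ ∑ i, ∑ j, B i j :=
    le_trans (Finset.single_le_sum (f := fun j => B i j) (fun _ _ => Nat.zero_le _)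
      (Finset.mem_univ j)) (Finset.single_le_sum (f := fun i => ∑ j, B i j)
      (fun _ _ => Nat.zero_le _) (Finset.mem_univ i))
  have h2 : ∏ i, ∏ j, R i j = R i j * ((∏ l ∈ Finset.univ.erase j, R i l) *
      ∏ k ∈ Finset.univ.erase i, ∏ l, R k l) := by
    rw [← mul_assoc, Finset.mul_prod_erase _ (fun l => R i l) (Finset.mem_univ j),
      Finset.mul_prod_erase _ (fun k => ∏ l, R k l) (Finset.mem_univ i)]
  obtain ⟨n, hn⟩ := hfi ((i.1 : ℤ), (j.1 : ℤ))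
  rw [hn]
  refine H220.Ex.smul (int_mul_dn n) ?_
  rw [h2]
  refine ((hB i j γ).mono (dn_mono h1 O)).up (hR i j) ?_
  exact Nat.mul_pos (Finset.prod_pos fun l _ => hR i l)
    (Finset.prod_pos fun k _ => Finset.prod_pos fun l _ => hR k l)

theorem dn_eq (B : ℕ) (O : Subring ℂ) : dn B O ≤ mulS ((2 : ℂ)⁻¹ ^ B) O := by
  intro x hx
  refine ⟨2 ^ B * x, hx, ?_⟩
  rw [← mul_assoc, ← mul_pow, inv_mul_cancel₀ two_ne_zero, one_pow, one_mul]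

/-! ## Invariance -/

/-- `f` is homogeneous under the odd integers `d ≡ 1 mod N`. -/
def Hom (N : ℕ) (χ : ℤ → ℤ) (f : ℤ × ℤ → ℂ) : Prop :=
  ∀ d : ℤ, Odd d → (N : ℤ) ∣ d - 1 → ∀ v, f (d • v) = χ d * f v

theorem slash_T (a b c : ℤ) (D κ : ℕ) (f : ℤ × ℤ → ℂ) (z : ℂ) (s : ℤ) (k : ℤ) :
    (fun τ : ℍ => z * th a b c D κ f τ) ∣[k] (ModularGroup.T ^ s) =
      fun τ : ℍ => z * th a b c D κ f τ := by
  funext τ
  have h2 : denom (ModularGroup.T ^ s : SL(2, ℤ)) τ = 1 := by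
    rw [ModularGroup.denom_apply, ModularGroup.coe_T_zpow]
    simp
  rw [ModularForm.SL_slash_apply, UpperHalfPlane.modular_T_zpow_smul, h2, one_zpow, mul_one]
  congr 1
  simp only [th, thT]
  refine tsum_congr fun v => ?_
  congr 1
  have h4 : (2 * π * I * (Qf a b c v : ℂ) * (((s : ℝ) +ᵥ τ : ℍ) : ℂ) : ℂ) =
      2 * π * I * (Qf a b c v : ℂ) * (τ : ℂ) + ((s * Qf a b c v : ℤ) : ℂ) * (2 * π * I) := by
    rw [UpperHalfPlane.coe_vadd]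
    push_cast
    ring
  rw [h4, Complex.exp_add, Complex.exp_int_mul_two_pi_mul_I, mul_one]

theorem inv_odd (hL : LAWGStmt) {a b c : ℤ} {D₁ e r m : ℕ} (ha : 0 < a) (hD₁ : Odd D₁)
    (hm : 0 < m)
    (hdisc : b ^ 2 - 4 * a * c = -((D₁ * 2 ^ e : ℕ) : ℤ)) {χ : ℤ → ℤ}
    (h1 : ∀ d, Odd d → χ d = 1 ∨ χ d = -1)
    (h4 : ∀ d d' : ℤ, Odd d → IsCoprime d (D₁ : ℤ) → Odd d' → (D₁ : ℤ) ∣ d' - 1 →
      chiD (D₁ * 2 ^ e) (d' * d) = χ d' * chiD (D₁ * 2 ^ e) d) (κ : ℕ)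
    {f : ℤ × ℤ → ℂ} (hf : Per (2 ^ r * m) f) (hh : Hom (D₁ * m ^ 2) χ f) (z : ℂ)
    (γ : SL(2, ℤ)) (hγ : γ ∈ Gamma1 (D₁ * m ^ 2)) (hγ2 : (2 ^ (e + 2 * r) : ℤ) ∣ γ 1 0)
    (hodd : Odd (γ 1 1)) (hm2 : Odd m) :
    (fun τ : ℍ => z * th a b c (D₁ * 2 ^ e) κ f τ) ∣[((κ + 1 : ℕ) : ℤ)] γ =
      fun τ : ℍ => z * th a b c (D₁ * 2 ^ e) κ f τ := by
  rw [Gamma1_mem] at hγ
  obtain ⟨-, h11, h10⟩ := hγ
  have h10' : ((D₁ * m ^ 2 : ℕ) : ℤ) ∣ γ 1 0 := (ZMod.intCast_zmod_eq_zero_iff_dvd _ _).1 h10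
  have h11' : ((D₁ * m ^ 2 : ℕ) : ℤ) ∣ γ 1 1 - 1 := by
    rw [← ZMod.intCast_zmod_eq_zero_iff_dvd]
    push_cast
    rw [h11, sub_self]
  have hcop : IsCoprime ((D₁ * m ^ 2 : ℕ) : ℤ) (2 ^ (e + 2 * r) : ℤ) := by
    have : Nat.Coprime (D₁ * m ^ 2) (2 ^ (e + 2 * r)) :=
      Nat.Coprime.pow_right _ ((hD₁.mul (hm2.pow)).coprime_two_right)
    have h := Nat.isCoprime_iff_coprime.2 this
    push_cast at h ⊢
    exact h
  have hdvd : ((D₁ * 2 ^ e * (2 ^ r * m) ^ 2 : ℕ) : ℤ) ∣ γ 1 0 := by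
    have := hcop.mul_dvd h10' hγ2
    refine dvd_trans ⟨1, ?_⟩ this
    push_cast
    ring
  have hD₁0 := hD₁.pos
  have hχ : chiD (D₁ * 2 ^ e) (γ 1 1) = χ (γ 1 1) := by
    have h5 := h4 1 (γ 1 1) odd_one isCoprime_one_left hodd
      (dvd_trans ⟨(m : ℤ) ^ 2, by push_cast; ring⟩ h11')
    rw [mul_one] at h5
    rw [h5]
    have h6 : chiD (D₁ * 2 ^ e) 1 = 1 := by
      simp [chiD]
    rw [h6, mul_one]
  funext τ
  rw [slash_lawG hL ha (by positivity) hdisc κ (by positivity) hf z γ hdvd hodd τ, hχ]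
  have h7 : (fun v => f ((γ 1 1) • v)) = fun v => (χ (γ 1 1) : ℂ) * f v := by
    funext v
    exact hh _ hodd h11' v
  rw [h7, th_smul]
  have h8 : ((χ (γ 1 1) : ℤ) : ℂ) * (χ (γ 1 1) : ℤ) = 1 := by
    rcases h1 _ hodd with h | h <;> rw [h] <;> simp
  linear_combination (z * th a b c (D₁ * 2 ^ e) κ f τ) * h8

theorem inv_all (hL : LAWGStmt) {a b c : ℤ} {D₁ e r m : ℕ} (ha : 0 < a) (hD₁ : Odd D₁)
    (hm : 0 < m)
    (hdisc : b ^ 2 - 4 * a * c = -((D₁ * 2 ^ e : ℕ) : ℤ)) {χ : ℤ → ℤ}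
    (h1 : ∀ d, Odd d → χ d = 1 ∨ χ d = -1)
    (h4 : ∀ d d' : ℤ, Odd d → IsCoprime d (D₁ : ℤ) → Odd d' → (D₁ : ℤ) ∣ d' - 1 →
      chiD (D₁ * 2 ^ e) (d' * d) = χ d' * chiD (D₁ * 2 ^ e) d) (κ : ℕ)
    {f : ℤ × ℤ → ℂ} (hf : Per (2 ^ r * m) f) (hh : Hom (D₁ * m ^ 2) χ f) (z : ℂ)
    (γ : SL(2, ℤ)) (hγ : γ ∈ Gamma1 (D₁ * m ^ 2)) (hγ2 : (2 ^ (e + 2 * r) : ℤ) ∣ γ 1 0)
    (hm2 : Odd m) :
    (fun τ : ℍ => z * th a b c (D₁ * 2 ^ e) κ f τ) ∣[((κ + 1 : ℕ) : ℤ)] γ =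
      fun τ : ℍ => z * th a b c (D₁ * 2 ^ e) κ f τ := by
  rcases Int.even_or_odd (γ 1 1) with hev | hodd
  · -- `γ T` has odd lower right entry
    have hdet : γ 0 0 * γ 1 1 - γ 0 1 * γ 1 0 = 1 := by
      have := γ.det_coe
      rwa [Matrix.det_fin_two] at this
    have hC : Odd (γ 1 0) := by
      rcases Int.even_or_odd (γ 1 0) with h | h
      · obtain ⟨x, hx⟩ := hev
        obtain ⟨y, hy⟩ := h
        exfalso
        rw [hx, hy] at hdet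
        have : (2 : ℤ) ∣ 1 := ⟨γ 0 0 * x - γ 0 1 * y, by linarith⟩
        norm_num at this
      · exact h
    have e10 : (γ * ModularGroup.T) 1 0 = γ 1 0 := by
      rw [Matrix.SpecialLinearGroup.coe_mul, Matrix.mul_apply, Fin.sum_univ_two,
        ModularGroup.coe_T]
      simp
    have e11 : (γ * ModularGroup.T) 1 1 = γ 1 0 + γ 1 1 := by
      rw [Matrix.SpecialLinearGroup.coe_mul, Matrix.mul_apply, Fin.sum_univ_two,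
        ModularGroup.coe_T]
      simp
    have hT : ModularGroup.T ∈ Gamma1 (D₁ * m ^ 2) := by
      rw [Gamma1_mem]
      simp [ModularGroup.T]
    have h5 := inv_odd hL ha hD₁ hm hdisc h1 h4 κ hf hh z (γ * ModularGroup.T)
      (Subgroup.mul_mem _ hγ hT) (by rw [e10]; exact hγ2) (by rw [e11]; exact hC.add_even hev) hm2
    have h6 : γ = (γ * ModularGroup.T) * ModularGroup.T ^ (-1 : ℤ) := by
      rw [zpow_neg, zpow_one, mul_inv_cancel_right]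
    rw [h6, SlashAction.slash_mul, h5, slash_T]
  · exact inv_odd hL ha hD₁ hm hdisc h1 h4 κ hf hh z γ hγ hγ2 hodd hm2

/-! ## Ideals -/

/-- The conclusion for one ideal: part (b) of [LIFT2]. -/
def THFStmt : Prop := ∀ (K : Type) [Field K] [NumberField K] [Algebra.IsQuadraticExtension ℚ K]
  [NumberField.IsTotallyComplex K] (D₁ e : ℕ) (_ : NumberField.discr K = -((D₁ * 2 ^ e : ℕ) : ℤ))
  (_ : Odd D₁) (m : ℕ) (_ : Odd m) (χ : ℤ → ℤ)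
  (_ : ∀ d, Odd d → χ d = 1 ∨ χ d = -1)
  (_ : ∀ d d' : ℤ, Odd d → IsCoprime d (D₁ : ℤ) → Odd d' → (D₁ : ℤ) ∣ d' - 1 →
      chiD (D₁ * 2 ^ e) (d' * d) = χ d' * chiD (D₁ * 2 ^ e) d)
  (σ : K →+* ℂ) (O : Subring ℂ) (_ : ∀ z, IsIntegral ℤ z → z ∈ O)
  (_ : ∀ m : ℕ, Odd m → ((m : ℂ)⁻¹) ∈ O) (r κ : ℕ) (𝔟 : Ideal (𝓞 K)) (_ : 𝔟 ≠ ⊥),
  ∃ B R : ℕ, 0 < R ∧ ∀ f : 𝓞 K → ℤ, Eqv m r (D₁ * m ^ 2) χ f →
    MDifferentiable 𝓘(ℂ) 𝓘(ℂ) (fun τ : ℍ => thI σ 𝔟 (fun α => (f α : ℂ)) κ τ) ∧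
    (∀ γ : SL(2, ℤ), γ ∈ Gamma1 (D₁ * m ^ 2) → (2 ^ (e + 2 * r) : ℤ) ∣ γ 1 0 →
      (fun τ : ℍ => thI σ 𝔟 (fun α => (f α : ℂ)) κ τ) ∣[((κ + 1 : ℕ) : ℤ)] γ =
        fun τ : ℍ => thI σ 𝔟 (fun α => (f α : ℂ)) κ τ) ∧
    (∀ γ : SL(2, ℤ), H220.Ex (mulS ((2 : ℂ)⁻¹ ^ B) O) R
      ((fun τ : ℍ => thI σ 𝔟 (fun α => (f α : ℂ)) κ τ) ∣[((κ + 1 : ℕ) : ℤ)] γ)) ∧
    (∀ (ℓ : PA (D₁ * m ^ 2)) (δ : SL(2, ℤ)),
      ((D₁ * m ^ 2 * 2 ^ (e + 2 * r) : ℕ) : ℤ) ∣ δ 1 0 → δ 1 1 = ℓ.1 →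
      (fun τ : ℍ => thI σ 𝔟 (fun α => (f α : ℂ)) κ τ) ∣[((κ + 1 : ℕ) : ℤ)] δ =
        fun τ : ℍ => thI σ 𝔟
          (fun α => ((chiD (D₁ * 2 ^ e) ℓ.1 * f (ℓ.1 * α) : ℤ) : ℂ)) κ τ) ∧
    ∀ τ : ℍ, HasSum (fun j : ℕ => cfI σ 𝔟 f κ j * cexp (2 * π * I * j * τ))
      (thI σ 𝔟 (fun α => (f α : ℂ)) κ τ)

section

variable {K : Type} [Field K] [NumberField K] {σ : K →+* ℂ} {𝔟 : Ideal (𝓞 K)}
  {a b c : ℤ} {D : ℕ} {φ : (ℤ × ℤ) ≃+ 𝔟} {ρ : ℂ}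

omit [NumberField K] in
theorem phi_add (φ : (ℤ × ℤ) ≃+ 𝔟) (v w : ℤ × ℤ) (m : ℤ) :
    ((φ (v + m • w) : 𝔟) : 𝓞 K) = (φ v : 𝓞 K) + m * (φ w : 𝓞 K) := by
  rw [map_add, map_zsmul]
  push_cast
  rw [zsmul_eq_mul]

omit [NumberField K] in
theorem phi_smul (φ : (ℤ × ℤ) ≃+ 𝔟) (v : ℤ × ℤ) (m : ℤ) :
    ((φ (m • v) : 𝔟) : 𝓞 K) = m * (φ v : 𝓞 K) := by
  rw [map_zsmul]
  push_cast
  rw [zsmul_eq_mul]

theorem thI_eq (hb : 𝔟 ≠ ⊥) (ha : 0 < a) (hD : 0 < D) (hd : b ^ 2 - 4 * a * c = -(D : ℤ))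
    (hφ : ∀ v, σ (φ v : 𝓞 K) = ρ * ev a b D v ∧
      (Ideal.absNorm (Ideal.span {(φ v : 𝓞 K)}) : ℤ) = Qf a b c v * Ideal.absNorm 𝔟)
    {m : ℕ} (hm : 0 < m) {f : 𝓞 K → ℂ} (κ : ℕ) (hF : Per m fun v => f (φ v)) {w : ℂ}
    (hw : 0 < w.im) :
    HasSum (idT σ 𝔟 f κ w) (ρ ^ κ * th a b c D κ (fun v => f (φ v)) w) := by
  rw [← φ.toEquiv.hasSum_iff]
  have h1 := (summable_thT ha hD hd κ hm hF hw).hasSum.mul_left (ρ ^ κ)
  refine H220.hs_congr' h1 fun v => ?_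
  have h2 := H761.idT_eq hb hφ f κ w v
  show idT σ 𝔟 f κ w (φ v) = _
  rw [h2, thT, thT]
  ring

theorem alg_rho (ha : 0 < a) (hφ : ∀ v, σ (φ v : 𝓞 K) = ρ * ev a b D v ∧
      (Ideal.absNorm (Ideal.span {(φ v : 𝓞 K)}) : ℤ) = Qf a b c v * Ideal.absNorm 𝔟) :
    IsAlgebraic ℚ ρ := by
  have h1 := (hφ (1, 0)).1
  have h2 : ev a b D (1, 0) = a := by simp [ev]
  rw [h2] at h1
  have ha' : (a : ℂ) ≠ 0 := by exact_mod_cast ha.ne'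
  have h3 : ρ = σ (φ (1, 0) : 𝓞 K) * (a : ℂ)⁻¹ := by
    rw [h1]; field_simp
  rw [h3]
  have h4 : IsAlgebraic ℚ (σ ((φ (1, 0) : 𝔟) : 𝓞 K)) := by
    have h5 : IsIntegral ℤ (σ (((φ (1, 0) : 𝔟) : 𝓞 K) : K)) :=
      (NumberField.RingOfIntegers.isIntegral_coe ((φ (1, 0) : 𝔟) : 𝓞 K)).map σ.toIntAlgHom
    exact (IsFractionRing.isAlgebraic_iff ℤ ℚ ℂ).1 h5.isAlgebraic
  have h6 : IsAlgebraic ℚ (a : ℂ) := by
    simpa using isAlgebraic_algebraMap (R := ℚ) (A := ℂ) (a : ℚ)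
  exact h4.mul h6.inv

theorem cf_hasSum (hb : 𝔟 ≠ ⊥) (ha : 0 < a) (hD : 0 < D) (hd : b ^ 2 - 4 * a * c = -(D : ℤ))
    (hφ : ∀ v, σ (φ v : 𝓞 K) = ρ * ev a b D v ∧
      (Ideal.absNorm (Ideal.span {(φ v : 𝓞 K)}) : ℤ) = Qf a b c v * Ideal.absNorm 𝔟)
    {f : 𝓞 K → ℤ} {κ : ℕ} {τ : ℂ} {F : ℂ}
    (h : HasSum (idT σ 𝔟 (fun α => (f α : ℂ)) κ τ) F) :
    HasSum (fun j : ℕ => cfI σ 𝔟 f κ j * cexp (2 * π * I * j * τ)) F := by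
  have hN : 0 < Ideal.absNorm 𝔟 :=
    Nat.pos_of_ne_zero fun h => hb (Ideal.absNorm_eq_zero_iff.1 h)
  set idx : 𝔟 → ℕ := fun α => Ideal.absNorm (Ideal.span {(α : 𝓞 K)}) / Ideal.absNorm 𝔟 with hidx
  have hdiv : ∀ α : 𝔟, Ideal.absNorm (Ideal.span {(α : 𝓞 K)}) = idx α * Ideal.absNorm 𝔟 := by
    intro α
    have h1 := (hφ (φ.symm α)).2
    rw [AddEquiv.apply_symm_apply] at h1
    have h2 : Ideal.absNorm 𝔟 ∣ Ideal.absNorm (Ideal.span {(α : 𝓞 K)}) := by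
      rw [← Int.natCast_dvd_natCast, h1]
      exact dvd_mul_left _ _
    exact (Nat.div_mul_cancel h2).symm
  have hidx2 : ∀ v, Qf a b c v = idx (φ v) := by
    intro v
    have h1 := (hφ v).2
    rw [hdiv] at h1
    push_cast at h1
    have h3 : (Ideal.absNorm 𝔟 : ℤ) ≠ 0 := by exact_mod_cast hN.ne'
    exact (mul_right_cancel₀ h3 h1).symm
  have hfin : ∀ j : ℕ, (idx ⁻¹' {j}).Finite := by
    intro j
    refine ((finite_level ha hD hd j).image φ).subset fun α hα => ?_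
    have h1 : idx α = j := hα
    refine ⟨φ.symm α, ?_, AddEquiv.apply_symm_apply _ _⟩
    show Qf a b c (φ.symm α) ≤ j
    rw [hidx2, AddEquiv.apply_symm_apply, h1]
  have h2 := h.tsum_fiberwise idx
  refine H220.hs_congr' h2 fun j => ?_
  have h3 : ∑' α : (idx ⁻¹' {j}), idT σ 𝔟 (fun α => (f α : ℂ)) κ τ α =
      ∑ α ∈ (hfin j).toFinset, idT σ 𝔟 (fun α => (f α : ℂ)) κ τ α := by
    rw [← Finset.tsum_subtype' (hfin j).toFinset (fun α => idT σ 𝔟 (fun α => (f α : ℂ)) κ τ α),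
      Set.Finite.coe_toFinset]
  rw [h3]
  have h4 : cfI σ 𝔟 f κ j = ∑ α ∈ (hfin j).toFinset, (f α : ℂ) * σ (α : 𝓞 K) ^ κ := by
    rw [cfI, ← finsum_mem_eq_finite_toFinset_sum (fun α : 𝔟 => (f α : ℂ) * σ (α : 𝓞 K) ^ κ)]
    symm
    refine finsum_mem_eq_of_bijOn (fun α : 𝔟 => (α : 𝓞 K)) ⟨?_, ?_, ?_⟩ fun α _ => rfl
    · intro α hα
      have h1 : idx α = j := hα
      refine ⟨α.2, ?_⟩
      rw [hdiv α, h1]
    · exact Subtype.val_injective.injOn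
    · rintro x ⟨hx, hx2⟩
      refine ⟨⟨x, hx⟩, ?_, rfl⟩
      show idx ⟨x, hx⟩ = j
      have h5 := hdiv ⟨x, hx⟩
      rw [hx2] at h5
      exact (Nat.eq_of_mul_eq_mul_right hN h5).symm
  rw [h4, Finset.sum_mul]
  refine Finset.sum_congr rfl fun α hα => ?_
  rw [Set.Finite.mem_toFinset] at hα
  have h5 : idx α = j := hα
  rw [idT, hdiv α, h5]
  have hN' : (Ideal.absNorm 𝔟 : ℂ) ≠ 0 := by exact_mod_cast hN.ne'
  congr 2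
  push_cast
  field_simp

end

/-- **[LIFT2], part (b).** -/
theorem thf (hP : POStmt) (hL : LAWGStmt) (hI : IBStmt) : THFStmt := by
  intro K _ _ _ _ D₁ e hdisc hD₁ m hm χ h1 h4 σ O hO1 hO2 r κ 𝔟 hb
  have hm0 : 0 < m := hm.pos
  have hD0 : 0 < D₁ * 2 ^ e := Nat.mul_pos hD₁.pos (by positivity)
  have hM : 0 < 2 ^ r * m := Nat.mul_pos (by positivity) hm0
  obtain ⟨a, b, c, φ, ρ, ha, hd, hρ, hφ⟩ := hI K (D₁ * 2 ^ e) hdisc σ 𝔟 hb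
  have hz : IsAlgebraic ℚ (ρ ^ κ) := (alg_rho ha hφ).pow κ
  obtain ⟨R, hR, B, hB⟩ := unif_all hP hL ha hD0 hd κ hz hM hO1 hO2
  have hper : ∀ f : 𝓞 K → ℤ, Eqv m r (D₁ * m ^ 2) χ f →
      Per (2 ^ r * m) (fun v => ((f (φ v : 𝓞 K) : ℤ) : ℂ)) := by
    intro f hf v w
    show ((f (φ (v + ((2 ^ r * m : ℕ) : ℤ) • w) : 𝓞 K) : ℤ) : ℂ) = (f (φ v : 𝓞 K) : ℤ)
    rw [phi_add]
    have := hf.1 (φ v : 𝓞 K) (φ w : 𝓞 K)
    push_cast at this ⊢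
    rw [this]
  have hF : ∀ f : 𝓞 K → ℤ, Eqv m r (D₁ * m ^ 2) χ f → ∀ w : ℂ, 0 < w.im →
      HasSum (idT σ 𝔟 (fun α => (f α : ℂ)) κ w)
        (ρ ^ κ * th a b c (D₁ * 2 ^ e) κ (fun v => ((f (φ v : 𝓞 K) : ℤ) : ℂ)) w) :=
    fun f hf w hw => thI_eq (f := fun α : 𝓞 K => ((f α : ℤ) : ℂ)) hb ha hD0 hd hφ hM κ
      (hper f hf) hw
  have hE : ∀ f : 𝓞 K → ℤ, Eqv m r (D₁ * m ^ 2) χ f →
      (fun τ : ℍ => thI σ 𝔟 (fun α => (f α : ℂ)) κ τ) =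
        fun τ : ℍ => ρ ^ κ * th a b c (D₁ * 2 ^ e) κ (fun v => ((f (φ v : 𝓞 K) : ℤ) : ℂ)) τ := by
    intro f hf
    funext τ
    exact (hF f hf τ τ.im_pos).tsum_eq
  refine ⟨B, R, hR, fun f hf => ⟨?_, ?_, ?_, ?_, ?_⟩⟩
  · rw [hE f hf]
    have h5 := mdiff_Th ha hD0 hd κ one_pos hM (hper f hf)
    have h6 : Th a b c (D₁ * 2 ^ e) κ 1 (fun v => ((f (φ v : 𝓞 K) : ℤ) : ℂ)) =
        fun τ : ℍ => th a b c (D₁ * 2 ^ e) κ (fun v => ((f (φ v : 𝓞 K) : ℤ) : ℂ)) τ := by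
      funext τ
      simp [Th]
    rw [h6] at h5
    exact h5.const_smul (ρ ^ κ)
  · intro γ hγ hγ2
    rw [hE f hf]
    refine inv_all hL ha hD₁ hm0 hd h1 h4 κ (hper f hf) ?_ _ γ hγ hγ2 hm
    intro d hd2 hdN v
    show ((f (φ (d • v) : 𝓞 K) : ℤ) : ℂ) = χ d * (f (φ v : 𝓞 K) : ℤ)
    rw [phi_smul, hf.2 d hd2 hdN]
    push_cast
    rfl
  · intro γ
    rw [hE f hf]
    exact (hB _ (hper f hf) (fun v => ⟨_, rfl⟩) γ).mono (dn_eq B O)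
  · intro ℓ δ hδ hδ2
    have hodd : Odd (δ 1 1) := by
      rw [hδ2]
      have h5 : ¬ ℓ.1 ∣ 2 * (D₁ * m ^ 2) := ℓ.2.2
      have h6 : Odd ℓ.1 := by
        rcases ℓ.2.1.eq_two_or_odd' with h | h
        · exact absurd (by rw [h]; exact dvd_mul_right _ _) h5
        · exact h
      exact_mod_cast h6
    have hdvd : ((D₁ * 2 ^ e * (2 ^ r * m) ^ 2 : ℕ) : ℤ) ∣ δ 1 0 := by
      refine dvd_trans ⟨1, ?_⟩ hδ
      push_cast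
      ring
    have hf' : Eqv m r (D₁ * m ^ 2) χ
        (fun α : 𝓞 K => chiD (D₁ * 2 ^ e) ℓ.1 * f (ℓ.1 * α)) := by
      constructor
      · intro α β
        show chiD (D₁ * 2 ^ e) ℓ.1 * f (ℓ.1 * (α + (2 ^ r * m : ℕ) * β)) = _
        rw [show (ℓ.1 : 𝓞 K) * (α + (2 ^ r * m : ℕ) * β) =
          ℓ.1 * α + (2 ^ r * m : ℕ) * (ℓ.1 * β) by ring, hf.1]
      · intro d hd2 hdN α
        show chiD (D₁ * 2 ^ e) ℓ.1 * f (ℓ.1 * (d * α)) =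
          χ d * (chiD (D₁ * 2 ^ e) ℓ.1 * f (ℓ.1 * α))
        rw [show (ℓ.1 : 𝓞 K) * (d * α) = d * (ℓ.1 * α) by ring, hf.2 d hd2 hdN]
        ring
    rw [hE f hf, hE _ hf']
    funext τ
    rw [slash_lawG hL ha hD0 hd κ hM (hper f hf) (ρ ^ κ) δ hdvd hodd τ, hδ2]
    have h7 : (fun v : ℤ × ℤ => ((chiD (D₁ * 2 ^ e) ℓ.1 * f (ℓ.1 * (φ v : 𝓞 K)) : ℤ) : ℂ)) =
        fun v => ((chiD (D₁ * 2 ^ e) ℓ.1 : ℤ) : ℂ) *
          ((f (φ ((ℓ.1 : ℤ) • v) : 𝓞 K) : ℤ) : ℂ) := by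
      funext v
      rw [phi_smul]
      push_cast
      rfl
    rw [h7, th_smul]
    ring
  · intro τ
    refine cf_hasSum hb ha hD0 hd hφ ?_
    exact (hF f hf τ τ.im_pos).summable.hasSum

end Vale.Agent.P022.H964
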