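import Vale.Agent.P022.H964.Lat
import Vale.Agent.P022.H220.Exp

/-!
# Expansions of the theta series at all cusps

For `f` with algebraic integer values, every `SL(2, ℤ)`-translate of the theta series has an
expansion `∑ a n * exp (2 π i n τ / R)` with `2 ^ B * a n` in a given ring `O` which contains the
algebraic integers and the inverses of odd integers.
-/

open UpperHalfPlane hiding I
open Filter Topology Matrix.SpecialLinearGroup CongruenceSubgroup Complex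
open scoped MatrixGroups ModularForm Manifold Real ComplexConjugate

noncomputable section

namespace Vale.Agent.P022.H964

open Vale.Agent.P022

/-! ## Algebraic integers -/

theorem isIntegral_rootOfUnity (s : ℤ) {n : ℕ} (hn : 0 < n) :
    IsIntegral ℤ (cexp (2 * π * I * s / n)) := by
  refine IsIntegral.of_pow hn ?_
  have hn' : (n : ℂ) ≠ 0 := by exact_mod_cast hn.ne'
  have h : cexp (2 * π * I * s / n) ^ n = 1 := by
    rw [← Complex.exp_nat_mul, show (n : ℂ) * (2 * π * I * s / n) = s * (2 * π * I) by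
      field_simp]
    exact Complex.exp_int_mul_two_pi_mul_I s
  rw [h]
  exact isIntegral_one

theorem isIntegral_ev {a b c : ℤ} {D : ℕ} (h : b ^ 2 - 4 * a * c = -(D : ℤ)) (v : ℤ × ℤ) :
    IsIntegral ℤ (ev a b D v) := by
  have hs : ((Real.sqrt D : ℝ) : ℂ) ^ 2 = D := by
    rw [← Complex.ofReal_pow, Real.sq_sqrt (Nat.cast_nonneg D)]
    simp
  have h' : (b : ℂ) ^ 2 - 4 * a * c = -(D : ℂ) := by exact_mod_cast h
  have h1 : IsIntegral ℤ (((b : ℂ) + I * (Real.sqrt D : ℂ)) / 2) := by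
    refine ⟨Polynomial.X ^ 2 - Polynomial.C b * Polynomial.X + Polynomial.C (a * c), ?_, ?_⟩
    · have : (Polynomial.X ^ 2 - Polynomial.C b * Polynomial.X + Polynomial.C (a * c) :
          Polynomial ℤ) = Polynomial.X ^ 2 + (-Polynomial.C b * Polynomial.X +
            Polynomial.C (a * c)) := by ring
      rw [this]
      refine Polynomial.monic_X_pow_add ?_
      have : (-Polynomial.C b * Polynomial.X + Polynomial.C (a * c) : Polynomial ℤ) =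
          Polynomial.C (-b) * Polynomial.X + Polynomial.C (a * c) := by
        rw [Polynomial.C_neg]
      rw [this]
      exact Polynomial.degree_linear_le.trans_lt (by norm_num)
    · simp only [Polynomial.eval₂_add, Polynomial.eval₂_sub, Polynomial.eval₂_mul,
        Polynomial.eval₂_pow, Polynomial.eval₂_X, Polynomial.eval₂_C]
      simp only [algebraMap_int_eq, Int.coe_castRingHom, Int.cast_mul]
      linear_combination (1 / 4 : ℂ) * h' * (-1) - (1 / 4 : ℂ) * hs +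
        (1 / 4 : ℂ) * ((Real.sqrt D : ℝ) : ℂ) ^ 2 * Complex.I_sq
  rw [ev]
  exact ((isIntegral_algebraMap (x := a)).mul (isIntegral_algebraMap (x := v.1))).add
    (h1.mul (isIntegral_algebraMap (x := v.2)))

/-! ## The refined stable family -/

/-- The stable family with algebraic integers. -/
def VI (a b c : ℤ) (D κ : ℕ) : Set (ℍ → ℂ) :=
  {F | ∃ (C : ℂ) (ρ : ℚ) (f : ℤ × ℤ → ℂ) (q : ℕ), IsAlgebraic ℚ C ∧ 0 < ρ ∧ 0 < q ∧ Per q f ∧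
    (∀ v, IsIntegral ℤ (f v)) ∧ ∀ τ, F τ = C * Th a b c D κ ρ f τ}

theorem int_mulE (a b c : ℤ) (ρ : ℚ) {f : ℤ × ℤ → ℂ} (hf : ∀ v, IsIntegral ℤ (f v)) (s : ℤ)
    (v : ℤ × ℤ) : IsIntegral ℤ (mulE a b c ρ f s v) := by
  refine (hf v).mul ?_
  have h := isIntegral_rootOfUnity (s * ρ.num * Qf a b c v) ρ.den_pos
  have h3 : (ρ : ℂ) = ρ.num / ρ.den := by exact_mod_cast (Rat.num_div_den ρ).symm
  have : (2 * π * I * s * (ρ * Qf a b c v) : ℂ) =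
      2 * π * I * ((s * ρ.num * Qf a b c v : ℤ) : ℂ) / ρ.den := by
    rw [h3]; push_cast; ring
  rw [this]
  exact h

theorem int_hatF (q : ℕ) (hq : 0 < q) {f : ℤ × ℤ → ℂ} (hf : ∀ v, IsIntegral ℤ (f v))
    (v : ℤ × ℤ) : IsIntegral ℤ (hatF q f v) := by
  refine IsIntegral.sum _ fun i _ => IsIntegral.sum _ fun j _ => ?_
  exact (hf _).mul (isIntegral_rootOfUnity _ hq)

theorem VI_T (a b c : ℤ) (D κ : ℕ) {F : ℍ → ℂ} (hF : F ∈ VI a b c D κ) (s : ℤ) :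
    F ∣[(κ + 1 : ℤ)] (ModularGroup.T ^ s) ∈ VI a b c D κ := by
  obtain ⟨C, ρ, f, q, hC, hρ, hq, hf, hi, h⟩ := hF
  refine ⟨C, ρ, mulE a b c ρ f s, q * ρ.den, hC, hρ, Nat.mul_pos hq ρ.den_pos,
    per_mulE a b c ρ hf s, int_mulE a b c ρ hi s, ?_⟩
  intro τ
  have h1 : (F ∣[(κ + 1 : ℤ)] (ModularGroup.T ^ s)) τ = F ((s : ℝ) +ᵥ τ) := by
    have h2 : denom (ModularGroup.T ^ s : SL(2, ℤ)) τ = 1 := by
      rw [ModularGroup.denom_apply, ModularGroup.coe_T_zpow]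
      simp
    rw [ModularForm.SL_slash_apply, UpperHalfPlane.modular_T_zpow_smul, h2, one_zpow, mul_one]
  rw [h1, h]
  simp only [Th]
  rw [← th_add]
  simp

theorem isAlgebraic_sqrt (D : ℕ) : IsAlgebraic ℚ ((Real.sqrt D : ℝ) : ℂ) := by
  refine IsAlgebraic.of_pow (n := 2) (by norm_num) ?_
  rw [← Complex.ofReal_pow, Real.sq_sqrt (Nat.cast_nonneg D)]
  simpa using isAlgebraic_algebraMap (R := ℚ) (A := ℂ) (D : ℚ)

theorem isAlgebraic_I : IsAlgebraic ℚ (I : ℂ) := by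
  refine IsAlgebraic.of_pow (n := 2) (by norm_num) ?_
  rw [Complex.I_sq]
  simpa using isAlgebraic_algebraMap (R := ℚ) (A := ℂ) (-1 : ℚ)

theorem VI_S (hP : POStmt) {a b c : ℤ} {D : ℕ} (ha : 0 < a) (hD : 0 < D)
    (hdisc : b ^ 2 - 4 * a * c = -(D : ℤ)) (κ : ℕ) {F : ℍ → ℂ} (hF : F ∈ VI a b c D κ) :
    F ∣[(κ + 1 : ℤ)] ModularGroup.S ∈ VI a b c D κ := by
  obtain ⟨C, ρ, f, q, hC, hρ, hq, hf, hi, h⟩ := hF
  refine ⟨C * ((q : ℂ) ^ κ * (-I / ((Real.sqrt D : ℂ) * q ^ 2 * ρ)) ^ (κ + 1)),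
    1 / (D * q ^ 2 * ρ), hatF q f, q, ?_, by positivity, hq, per_hatF q hq f, int_hatF q hq hi, ?_⟩
  · have hq1 : IsAlgebraic ℚ (q : ℂ) := by
      simpa using isAlgebraic_algebraMap (R := ℚ) (A := ℂ) (q : ℚ)
    have hρ1 : IsAlgebraic ℚ (ρ : ℂ) := by
      simpa using isAlgebraic_algebraMap (R := ℚ) (A := ℂ) ρ
    have h1 : IsAlgebraic ℚ ((Real.sqrt D : ℂ) * q ^ 2 * ρ) :=
      ((isAlgebraic_sqrt D).mul (hq1.pow 2)).mul hρ1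
    have h2 : IsAlgebraic ℚ (-I / ((Real.sqrt D : ℂ) * q ^ 2 * ρ)) := by
      rw [div_eq_mul_inv]
      exact isAlgebraic_I.neg.mul h1.inv
    exact hC.mul ((hq1.pow κ).mul (h2.pow (κ + 1)))
  intro τ
  rw [SlashInvariantForm.slash_S_apply, h]
  have hτ : (τ : ℂ) ≠ 0 := τ.ne_zero
  have hρ' : (ρ : ℂ) ≠ 0 := by exact_mod_cast hρ.ne'
  have hD' : (D : ℂ) ≠ 0 := by exact_mod_cast hD.ne'
  have hq' : (q : ℂ) ≠ 0 := by exact_mod_cast hq.ne'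
  have hs : ((Real.sqrt D : ℝ) : ℂ) ≠ 0 := by
    have : Real.sqrt D ≠ 0 := (Real.sqrt_pos.2 (by exact_mod_cast hD)).ne'
    exact_mod_cast this
  have h3 : 0 < ((ρ : ℂ) * (-(τ : ℂ))⁻¹).im := by
    have h4 : ((ρ : ℂ) * (-(τ : ℂ))⁻¹).im = ρ * (-(τ : ℂ))⁻¹.im := by
      have : (ρ : ℂ) = ((ρ : ℝ) : ℂ) := by push_cast; rfl
      rw [this, Complex.im_ofReal_mul]
    rw [h4]
    exact mul_pos (by exact_mod_cast hρ) τ.im_inv_neg_coe_pos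
  obtain ⟨-, h5⟩ := hP a b c D ha hD hdisc κ q hq f hf _ h3
  simp only [Th]
  rw [h5]
  have h6 : (-1 / ((D : ℂ) * q ^ 2 * (ρ * (-(τ : ℂ))⁻¹))) =
      ((1 / (D * q ^ 2 * ρ) : ℚ) : ℂ) * τ := by
    push_cast
    field_simp
  have h7 : (I / ((Real.sqrt D : ℂ) * q ^ 2 * (ρ * (-(τ : ℂ))⁻¹))) ^ (κ + 1) *
      (τ : ℂ) ^ (-((κ : ℤ) + 1)) = (-I / ((Real.sqrt D : ℂ) * q ^ 2 * ρ)) ^ (κ + 1) := by
    rw [zpow_neg, show ((κ : ℤ) + 1) = ((κ + 1 : ℕ) : ℤ) by push_cast; ring, zpow_natCast,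
      ← inv_pow, ← mul_pow]
    congr 1
    field_simp
  rw [h6, ← h7]
  ring

theorem VI_all (hP : POStmt) {a b c : ℤ} {D : ℕ} (ha : 0 < a) (hD : 0 < D)
    (hdisc : b ^ 2 - 4 * a * c = -(D : ℤ)) (κ : ℕ) {F : ℍ → ℂ} (hF : F ∈ VI a b c D κ)
    (A : SL(2, ℤ)) : F ∣[(κ + 1 : ℤ)] A ∈ VI a b c D κ := by
  refine stable (k := (κ + 1 : ℤ)) (V := VI a b c D κ)
    (fun f hf => VI_S hP ha hD hdisc κ hf) (fun f hf => ?_) (fun f hf => ?_) A F hF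
  · simpa using VI_T a b c D κ hf 1
  · simpa using VI_T a b c D κ hf (-1)

/-! ## Expansions -/

theorem finite_level {a b c : ℤ} {D : ℕ} (ha : 0 < a) (hD : 0 < D)
    (h : b ^ 2 - 4 * a * c = -(D : ℤ)) (n : ℤ) : {v : ℤ × ℤ | Qf a b c v ≤ n}.Finite := by
  obtain ⟨c₀, h0, hl⟩ := Q_lower ha hD h
  obtain ⟨M, hM⟩ := exists_nat_gt ((n : ℝ) / c₀)
  refine ((Finset.Icc (-(M : ℤ)) M ×ˢ Finset.Icc (-(M : ℤ)) M).finite_toSet).subset ?_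
  intro v hv
  have hv' : (Qf a b c v : ℝ) ≤ n := by exact_mod_cast hv
  have h1 : (v.1 : ℝ) ^ 2 + (v.2 : ℝ) ^ 2 < M := by
    refine lt_of_le_of_lt ?_ hM
    rw [le_div_iff₀ h0]
    linarith [hl v]
  have h2 : v.1 ^ 2 + v.2 ^ 2 < (M : ℤ) := by exact_mod_cast h1
  have hb : ∀ x : ℤ, x ^ 2 < M → x ∈ Finset.Icc (-(M : ℤ)) M := by
    intro x hx
    rw [Finset.mem_Icc]
    constructor
    · by_contra hc
      nlinarith
    · by_contra hc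
      nlinarith
  rw [Finset.mem_coe, Finset.mem_product]
  exact ⟨hb _ (by nlinarith [sq_nonneg v.2]), hb _ (by nlinarith [sq_nonneg v.1])⟩

/-- the index of `v` -/
def idx (a b c : ℤ) (ρ : ℚ) (v : ℤ × ℤ) : ℕ := (ρ.num * Qf a b c v).toNat

theorem expansion {a b c : ℤ} {D : ℕ} (ha : 0 < a) (hD : 0 < D)
    (h : b ^ 2 - 4 * a * c = -(D : ℤ)) (κ : ℕ) {ρ : ℚ} (hρ : 0 < ρ) {q : ℕ} (hq : 0 < q)
    {f : ℤ × ℤ → ℂ} (hf : Per q f) (hi : ∀ v, IsIntegral ℤ (f v)) :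
    ∃ A : ℕ → ℂ, (∀ n, IsIntegral ℤ (A n)) ∧ ∀ τ : ℍ,
      HasSum (fun n : ℕ => A n * cexp (2 * π * I * n * (τ : ℂ) / ρ.den)) (Th a b c D κ ρ f τ) := by
  have hfin : ∀ n : ℕ, (idx a b c ρ ⁻¹' {n}).Finite := by
    intro n
    refine (finite_level ha hD h n).subset fun v hv => ?_
    have h1 : (ρ.num * Qf a b c v).toNat = n := hv
    have hn : 0 < ρ.num := Rat.num_pos.2 hρ
    have hQ : 0 ≤ Qf a b c v := by exact_mod_cast Q_nonneg ha hD h v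
    have h2 : ρ.num * Qf a b c v ≤ n := by
      rw [← h1]; exact Int.self_le_toNat _
    show Qf a b c v ≤ n
    nlinarith
  refine ⟨fun n => ∑ v ∈ (hfin n).toFinset, f v * ev a b D v ^ κ, fun n => ?_, fun τ => ?_⟩
  · exact IsIntegral.sum _ fun v _ => (hi v).mul ((isIntegral_ev h v).pow κ)
  obtain ⟨B, hB0, hB⟩ := per_bounded hq hf
  have hs := (summable_term (good ha hD h κ hρ hB0 hB) τ.im_pos).hasSum
  have h1 : (∑' v, f v * ev a b D v ^ κ * cexp (2 * π * I * (τ : ℂ) *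
      (((ρ : ℝ) * Qf a b c v : ℝ) : ℂ))) = Th a b c D κ ρ f τ := (th_eq_ser a b c D κ ρ f τ).symm
  rw [h1] at hs
  have h2 := hs.tsum_fiberwise (idx a b c ρ)
  refine H220.hs_congr' h2 fun n => ?_
  have h3 : ∑' v : (idx a b c ρ ⁻¹' {n}), f v * ev a b D v ^ κ * cexp (2 * π * I * (τ : ℂ) *
      (((ρ : ℝ) * Qf a b c v : ℝ) : ℂ)) =
      ∑ v ∈ (hfin n).toFinset, f v * ev a b D v ^ κ * cexp (2 * π * I * (τ : ℂ) *
      (((ρ : ℝ) * Qf a b c v : ℝ) : ℂ)) := by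
    rw [← Finset.tsum_subtype' (hfin n).toFinset (fun v => f v * ev a b D v ^ κ *
      cexp (2 * π * I * (τ : ℂ) * (((ρ : ℝ) * Qf a b c v : ℝ) : ℂ))), Set.Finite.coe_toFinset]
  rw [h3, Finset.sum_mul]
  refine Finset.sum_congr rfl fun v hv => ?_
  rw [Set.Finite.mem_toFinset] at hv
  have h4 : (ρ.num * Qf a b c v).toNat = n := hv
  have hn : 0 < ρ.num := Rat.num_pos.2 hρ
  have hQ : 0 ≤ Qf a b c v := by exact_mod_cast Q_nonneg ha hD h v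
  have h5 : (n : ℤ) = ρ.num * Qf a b c v := by
    rw [← h4, Int.toNat_of_nonneg (by positivity)]
  have h6 : (n : ℂ) = ρ.num * Qf a b c v := by exact_mod_cast h5
  have h7 : (ρ : ℂ) = ρ.num / ρ.den := by exact_mod_cast (Rat.num_div_den ρ).symm
  congr 2
  rw [h6]
  push_cast
  rw [h7]
  ring

/-! ## Denominators -/

/-- `2 ^ (-B) O` -/
def dn (B : ℕ) (O : Subring ℂ) : AddSubgroup ℂ where
  carrier := {x | 2 ^ B * x ∈ O}
  add_mem' {x y} hx hy := by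
    show 2 ^ B * (x + y) ∈ O
    rw [mul_add]
    exact O.add_mem hx hy
  zero_mem' := by
    show 2 ^ B * (0 : ℂ) ∈ O
    rw [mul_zero]
    exact O.zero_mem
  neg_mem' {x} hx := by
    show 2 ^ B * (-x) ∈ O
    rw [mul_neg]
    exact O.neg_mem hx

theorem mem_dn {B : ℕ} {O : Subring ℂ} {x : ℂ} : x ∈ dn B O ↔ 2 ^ B * x ∈ O := Iff.rfl

theorem dn_mono {B B' : ℕ} (h : B ≤ B') (O : Subring ℂ) : dn B O ≤ dn B' O := by
  intro x hx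
  rw [mem_dn] at hx ⊢
  rw [show (2 : ℂ) ^ B' * x = 2 ^ (B' - B) * (2 ^ B * x) by
    rw [← mul_assoc, ← pow_add, Nat.sub_add_cancel h]]
  exact O.mul_mem (O.pow_mem (ofNat_mem O 2) _) hx

theorem alg_dn {O : Subring ℂ} (hO1 : ∀ x : ℂ, IsIntegral ℤ x → x ∈ O)
    (hO2 : ∀ n : ℕ, Odd n → (n : ℂ)⁻¹ ∈ O) {C : ℂ} (hC : IsAlgebraic ℚ C) :
    ∃ B, ∀ x ∈ O, C * x ∈ dn B O := by
  have hC' : IsAlgebraic ℤ C := (IsFractionRing.isAlgebraic_iff ℤ ℚ ℂ).2 hC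
  obtain ⟨n, hn, hi⟩ := hC'.exists_integral_multiple
  obtain ⟨B, n', hn', he⟩ := Nat.exists_eq_two_pow_mul_odd (Int.natAbs_ne_zero.2 hn)
  refine ⟨B, fun x hx => ?_⟩
  rw [mem_dn]
  have h1 : IsIntegral ℤ ((n.natAbs : ℂ) * C) := by
    rcases Int.natAbs_eq n with h | h
    · have : ((n.natAbs : ℕ) : ℂ) = (n : ℂ) := by
        conv_rhs => rw [h]
        simp
      rw [this]
      simpa [zsmul_eq_mul] using hi
    · have : ((n.natAbs : ℕ) : ℂ) = -(n : ℂ) := by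
        conv_rhs => rw [h]
        simp
      rw [this, neg_mul]
      exact IsIntegral.neg (by simpa [zsmul_eq_mul] using hi)
  have hn0 : (n' : ℂ) ≠ 0 := by
    have := hn'.pos
    exact_mod_cast this.ne'
  have h2 : (2 : ℂ) ^ B * (C * x) = (n' : ℂ)⁻¹ * ((n.natAbs : ℂ) * C) * x := by
    rw [he]
    push_cast
    field_simp
  rw [h2]
  exact O.mul_mem (O.mul_mem (hO2 n' hn') (hO1 _ h1)) hx

open H220 in
theorem ex_VI {a b c : ℤ} {D : ℕ} (ha : 0 < a) (hD : 0 < D)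
    (hdisc : b ^ 2 - 4 * a * c = -(D : ℤ)) (κ : ℕ) {O : Subring ℂ}
    (hO1 : ∀ x : ℂ, IsIntegral ℤ x → x ∈ O) (hO2 : ∀ n : ℕ, Odd n → (n : ℂ)⁻¹ ∈ O)
    {F : ℍ → ℂ} (hF : F ∈ VI a b c D κ) : ∃ R : ℕ, 0 < R ∧ ∃ B, Ex (dn B O) R F := by
  obtain ⟨C, ρ, f, q, hC, hρ, hq, hf, hi, h⟩ := hF
  obtain ⟨B, hB⟩ := alg_dn hO1 hO2 hC
  obtain ⟨A, hA, hs⟩ := expansion ha hD hdisc κ hρ hq hf hi
  refine ⟨ρ.den, ρ.den_pos, B, fun n => C * A n, fun n => hB _ (hO1 _ (hA n)), fun τ => ?_⟩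
  rw [h τ]
  exact hs_congr' ((hs τ).mul_left C) fun n => by ring

theorem mem_VI (a b c : ℤ) (D κ : ℕ) {m : ℕ} (hm : 0 < m) {f : ℤ × ℤ → ℂ} (hf : Per m f)
    (hi : ∀ v, IsIntegral ℤ (f v)) : (fun τ : ℍ => th a b c D κ f τ) ∈ VI a b c D κ :=
  ⟨1, 1, f, m, isAlgebraic_one, one_pos, hm, hf, hi, fun τ => by simp [Th]⟩

/-- **[THX]**: the theta series has expansions with coefficients in `2 ^ (-B) O` at every cusp. -/
theorem thx (hP : POStmt) {a b c : ℤ} {D : ℕ} (ha : 0 < a) (hD : 0 < D)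
    (hdisc : b ^ 2 - 4 * a * c = -(D : ℤ)) (κ : ℕ) {m : ℕ} (hm : 0 < m) {f : ℤ × ℤ → ℂ}
    (hf : Per m f) (hi : ∀ v, IsIntegral ℤ (f v)) {O : Subring ℂ}
    (hO1 : ∀ x : ℂ, IsIntegral ℤ x → x ∈ O) (hO2 : ∀ n : ℕ, Odd n → (n : ℂ)⁻¹ ∈ O)
    (γ : SL(2, ℤ)) : ∃ R : ℕ, 0 < R ∧ ∃ B,
      H220.Ex (dn B O) R ((fun τ : ℍ => th a b c D κ f τ) ∣[((κ + 1 : ℕ) : ℤ)] γ) := by
  have := ex_VI ha hD hdisc κ hO1 hO2
    (VI_all hP ha hD hdisc κ (mem_VI a b c D κ hm hf hi) γ)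
  simpa using this

/-- Uniformity over `SL(2, ℤ)`. -/
theorem unif {O : Subring ℂ} {F : ℍ → ℂ} {k : ℤ} (Γ : Subgroup SL(2, ℤ)) [Γ.FiniteIndex]
    (hinv : ∀ δ ∈ Γ, F ∣[k] δ = F)
    (h : ∀ γ : SL(2, ℤ), ∃ R : ℕ, 0 < R ∧ ∃ B, H220.Ex (dn B O) R (F ∣[k] γ)) :
    ∃ R : ℕ, 0 < R ∧ ∃ B, ∀ γ : SL(2, ℤ), H220.Ex (dn B O) R (F ∣[k] γ) := by
  classical
  have hfin : Finite (SL(2, ℤ) ⧸ Γ) := Subgroup.finite_quotient_of_finiteIndex
  have := Fintype.ofFinite (SL(2, ℤ) ⧸ Γ)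
  choose R hR B hB using h
  refine ⟨∏ x : SL(2, ℤ) ⧸ Γ, R x.out⁻¹, Finset.prod_pos fun x _ => hR _,
    ∑ x : SL(2, ℤ) ⧸ Γ, B x.out⁻¹, fun γ => ?_⟩
  obtain ⟨x, hx⟩ : ∃ x : SL(2, ℤ) ⧸ Γ, QuotientGroup.mk (γ⁻¹) = x := ⟨_, rfl⟩
  have h1 : (γ⁻¹)⁻¹ * x.out ∈ Γ := by
    rw [← QuotientGroup.eq, hx]
    exact (Quotient.out_eq x).symm
  rw [inv_inv] at h1
  have h2 : F ∣[k] x.out⁻¹ = F ∣[k] γ := by
    have h3 : x.out⁻¹ = (γ * x.out)⁻¹ * γ := by group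
    rw [h3, SlashAction.slash_mul, hinv _ (Γ.inv_mem h1)]
  have h4 := hB x.out⁻¹
  rw [h2] at h4
  have h5 : B x.out⁻¹ ≤ ∑ x : SL(2, ℤ) ⧸ Γ, B x.out⁻¹ :=
    Finset.single_le_sum (f := fun x : SL(2, ℤ) ⧸ Γ => B x.out⁻¹) (fun _ _ => Nat.zero_le _)
      (Finset.mem_univ x)
  have h6 : ∏ x : SL(2, ℤ) ⧸ Γ, R x.out⁻¹ =
      R x.out⁻¹ * ∏ y ∈ Finset.univ.erase x, R y.out⁻¹ :=
    (Finset.mul_prod_erase _ (fun x : SL(2, ℤ) ⧸ Γ => R x.out⁻¹) (Finset.mem_univ x)).symm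
  rw [h6]
  exact (h4.mono (dn_mono h5 O)).up (hR _) (Finset.prod_pos fun y _ => hR _)

/-- **[THX], uniform form.** -/
theorem thx_unif (hP : POStmt) {a b c : ℤ} {D : ℕ} (ha : 0 < a) (hD : 0 < D)
    (hdisc : b ^ 2 - 4 * a * c = -(D : ℤ)) (κ : ℕ) {m : ℕ} (hm : 0 < m) {f : ℤ × ℤ → ℂ}
    (hf : Per m f) (hi : ∀ v, IsIntegral ℤ (f v)) {O : Subring ℂ}
    (hO1 : ∀ x : ℂ, IsIntegral ℤ x → x ∈ O) (hO2 : ∀ n : ℕ, Odd n → (n : ℂ)⁻¹ ∈ O)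
    (Γ : Subgroup SL(2, ℤ)) [Γ.FiniteIndex]
    (hinv : ∀ δ ∈ Γ, (fun τ : ℍ => th a b c D κ f τ) ∣[((κ + 1 : ℕ) : ℤ)] δ =
      fun τ : ℍ => th a b c D κ f τ) :
    ∃ R : ℕ, 0 < R ∧ ∃ B, ∀ γ : SL(2, ℤ),
      H220.Ex (dn B O) R ((fun τ : ℍ => th a b c D κ f τ) ∣[((κ + 1 : ℕ) : ℤ)] γ) :=
  unif Γ hinv fun γ => thx hP ha hD hdisc κ hm hf hi hO1 hO2 γ

end Vale.Agent.P022.H964
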