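import Vale.Agent.P022.H964.Ser
import Vale.Agent.P022.H472.Lit

/-!
# Theta series of a binary form: convergence, holomorphy, all cusps
-/

open UpperHalfPlane hiding I
open Filter Topology Matrix.SpecialLinearGroup CongruenceSubgroup Complex
open scoped MatrixGroups ModularForm Manifold Real ComplexConjugate

noncomputable section

namespace Vale.Agent.P022.H964

open Vale.Agent.P022

/-! ## The form -/

theorem norm_ev_sq {a b c : ℤ} {D : ℕ} (h : b ^ 2 - 4 * a * c = -(D : ℤ)) (v : ℤ × ℤ) :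
    ‖ev a b D v‖ ^ 2 = a * Qf a b c v := by
  have h' : (b : ℝ) ^ 2 - 4 * a * c = -(D : ℝ) := by exact_mod_cast h
  have hs : Real.sqrt D ^ 2 = D := Real.sq_sqrt (Nat.cast_nonneg D)
  have h1 : ev a b D v = ((a * v.1 + b / 2 * v.2 : ℝ) : ℂ) + ((Real.sqrt D / 2 * v.2 : ℝ) : ℂ) * I := by
    simp only [ev]
    push_cast
    ring
  rw [h1, ← normSq_eq_norm_sq, normSq_add_mul_I]
  simp only [Qf]
  push_cast
  linear_combination ((v.2 : ℝ) ^ 2 / 4) * hs + ((v.2 : ℝ) ^ 2 / 4) * h'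

theorem c_pos {a b c : ℤ} {D : ℕ} (ha : 0 < a) (hD : 0 < D) (h : b ^ 2 - 4 * a * c = -(D : ℤ)) :
    0 < c := by
  have hD' : (0 : ℤ) < D := by exact_mod_cast hD
  by_contra hc
  nlinarith [sq_nonneg b, mul_nonneg ha.le (not_lt.1 hc |> neg_nonneg.2)]

theorem Q_lower {a b c : ℤ} {D : ℕ} (ha : 0 < a) (hD : 0 < D)
    (h : b ^ 2 - 4 * a * c = -(D : ℤ)) : ∃ c₀ : ℝ, 0 < c₀ ∧ ∀ v : ℤ × ℤ,
    c₀ * ((v.1 : ℝ) ^ 2 + (v.2 : ℝ) ^ 2) ≤ Qf a b c v := by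
  have hc := c_pos ha hD h
  have ha' : (0 : ℝ) < a := by exact_mod_cast ha
  have hc' : (0 : ℝ) < c := by exact_mod_cast hc
  have hD' : (0 : ℝ) < D := by exact_mod_cast hD
  refine ⟨D / (4 * (a + c)), by positivity, fun v => ?_⟩
  rw [div_mul_eq_mul_div, div_le_iff₀ (by positivity)]
  have h' : (b : ℝ) ^ 2 - 4 * a * c = -(D : ℝ) := by exact_mod_cast h
  simp only [Qf]
  push_cast
  nlinarith [sq_nonneg (2 * (a : ℝ) * v.1 + b * v.2), sq_nonneg (2 * (c : ℝ) * v.2 + b * v.1)]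

theorem Q_nonneg {a b c : ℤ} {D : ℕ} (ha : 0 < a) (hD : 0 < D)
    (h : b ^ 2 - 4 * a * c = -(D : ℤ)) (v : ℤ × ℤ) : (0 : ℝ) ≤ Qf a b c v := by
  obtain ⟨c₀, h0, h⟩ := Q_lower ha hD h
  exact le_trans (by positivity) (h v)

/-! ## Convergence -/

theorem summable_exp_sq {c : ℝ} (hc : 0 < c) :
    Summable fun n : ℤ => Real.exp (-(c * (n : ℝ) ^ 2)) := by
  have h := summable_pow_mul_jacobiTheta₂_term_bound 0 (div_pos hc Real.pi_pos) 0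
  refine h.congr fun n => ?_
  have hπ := Real.pi_ne_zero
  rw [pow_zero, one_mul]
  congr 1
  field_simp
  ring

theorem summable_exp_Q {a b c : ℤ} {D : ℕ} (ha : 0 < a) (hD : 0 < D)
    (h : b ^ 2 - 4 * a * c = -(D : ℤ)) {A : ℝ} (hA : 0 < A) :
    Summable fun v : ℤ × ℤ => Real.exp (-(A * Qf a b c v)) := by
  obtain ⟨c₀, h0, hl⟩ := Q_lower ha hD h
  have h1 := summable_exp_sq (mul_pos hA h0)
  have h2 : Summable fun x : ℤ × ℤ =>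
      Real.exp (-(A * c₀ * (x.1 : ℝ) ^ 2)) * Real.exp (-(A * c₀ * (x.2 : ℝ) ^ 2)) :=
    h1.mul_of_nonneg h1 (fun _ => (Real.exp_pos _).le) (fun _ => (Real.exp_pos _).le)
  refine Summable.of_nonneg_of_le (fun _ => (Real.exp_pos _).le) (fun v => ?_) h2
  rw [← Real.exp_add]
  refine Real.exp_le_exp.2 ?_
  have h4 := mul_le_mul_of_nonneg_left (hl v) hA.le
  linarith

theorem ev_pow_le {a b c : ℤ} {D : ℕ} (ha : 0 < a) (hD : 0 < D)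
    (h : b ^ 2 - 4 * a * c = -(D : ℤ)) (κ : ℕ) {A : ℝ} (hA : 0 < A) :
    ∃ C : ℝ, 0 ≤ C ∧ ∀ v : ℤ × ℤ, ‖ev a b D v ^ κ‖ ≤ C * Real.exp (A * Qf a b c v) := by
  have ha' : (0 : ℝ) < a := by exact_mod_cast ha
  refine ⟨1 + (a / A) ^ κ * κ.factorial, by positivity, fun v => ?_⟩
  have hQ := Q_nonneg ha hD h v
  have h1 := norm_ev_sq h v
  have h2 : (A * Qf a b c v) ^ κ ≤ κ.factorial * Real.exp (A * Qf a b c v) := by
    have := Real.pow_div_factorial_le_exp (A * Qf a b c v) (mul_nonneg hA.le hQ) κ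
    rw [div_le_iff₀ (by positivity)] at this
    linarith
  have h3 : (‖ev a b D v‖ ^ κ) ^ 2 ≤ (a / A) ^ κ * (κ.factorial * Real.exp (A * Qf a b c v)) := by
    calc (‖ev a b D v‖ ^ κ) ^ 2 = (‖ev a b D v‖ ^ 2) ^ κ := by ring
      _ = (a / A) ^ κ * (A * Qf a b c v) ^ κ := by
          rw [h1, ← mul_pow]; congr 1; field_simp
      _ ≤ _ := mul_le_mul_of_nonneg_left h2 (by positivity)
  have h4 : (1 : ℝ) ≤ Real.exp (A * Qf a b c v) := Real.one_le_exp (mul_nonneg hA.le hQ)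
  rw [norm_pow]
  nlinarith [sq_nonneg (‖ev a b D v‖ ^ κ - 1), norm_nonneg (ev a b D v)]

theorem per_bounded {q : ℕ} (hq : 0 < q) {f : ℤ × ℤ → ℂ} (hf : Per q f) :
    ∃ B : ℝ, 0 ≤ B ∧ ∀ v, ‖f v‖ ≤ B := by
  refine ⟨∑ r ∈ Finset.Ico (0 : ℤ) q ×ˢ Finset.Ico (0 : ℤ) q, ‖f r‖,
    Finset.sum_nonneg fun _ _ => norm_nonneg _, fun v => ?_⟩
  have hq' : (0 : ℤ) < q := by exact_mod_cast hq
  have h1 : f v = f (v.1 % q, v.2 % q) := by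
    rw [← hf (v.1 % q, v.2 % q) (v.1 / q, v.2 / q)]
    congr 1
    ext
    · exact (Int.emod_add_mul_ediv v.1 q).symm
    · exact (Int.emod_add_mul_ediv v.2 q).symm
  rw [h1]
  refine Finset.single_le_sum (f := fun r : ℤ × ℤ => ‖f r‖) (fun _ _ => norm_nonneg _) ?_
  rw [Finset.mem_product, Finset.mem_Ico, Finset.mem_Ico]
  exact ⟨⟨Int.emod_nonneg _ hq'.ne', Int.emod_lt_of_pos _ hq'⟩,
    ⟨Int.emod_nonneg _ hq'.ne', Int.emod_lt_of_pos _ hq'⟩⟩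

theorem good {a b c : ℤ} {D : ℕ} (ha : 0 < a) (hD : 0 < D) (h : b ^ 2 - 4 * a * c = -(D : ℤ))
    (κ : ℕ) {ρ : ℚ} (hρ : 0 < ρ) {f : ℤ × ℤ → ℂ} {B : ℝ} (hB0 : 0 ≤ B) (hB : ∀ v, ‖f v‖ ≤ B) :
    Good (fun v : ℤ × ℤ => f v * ev a b D v ^ κ) (fun v => (ρ : ℝ) * Qf a b c v) := by
  have hρ' : (0 : ℝ) < ρ := by exact_mod_cast hρ
  refine ⟨fun v => mul_nonneg hρ'.le (Q_nonneg ha hD h v), fun A hA => ?_⟩
  have hA' : 0 < π * A * ρ := by positivity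
  obtain ⟨C, hC0, hC⟩ := ev_pow_le ha hD h κ hA'
  refine Summable.of_nonneg_of_le (fun _ => by positivity) (fun v => ?_)
    ((summable_exp_Q ha hD h hA').mul_left (B * C))
  calc ‖f v * ev a b D v ^ κ‖ * Real.exp (-(2 * π * A * (ρ * Qf a b c v)))
      ≤ (B * (C * Real.exp (π * A * ρ * Qf a b c v))) *
          Real.exp (-(2 * π * A * (ρ * Qf a b c v))) := by
        refine mul_le_mul_of_nonneg_right ?_ (Real.exp_pos _).le
        rw [norm_mul]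
        exact mul_le_mul (hB v) (hC v) (norm_nonneg _) hB0
    _ = B * C * Real.exp (-(π * A * ρ * Qf a b c v)) := by
        rw [show -(π * A * ρ * Qf a b c v) =
          π * A * ρ * Qf a b c v + -(2 * π * A * (ρ * Qf a b c v)) by ring, Real.exp_add]
        ring

theorem th_eq_ser (a b c : ℤ) (D κ : ℕ) (ρ : ℚ) (f : ℤ × ℤ → ℂ) (w : ℂ) :
    th a b c D κ f (ρ * w) =
      ser (fun v : ℤ × ℤ => f v * ev a b D v ^ κ) (fun v => (ρ : ℝ) * Qf a b c v) w := by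
  simp only [th, thT, ser]
  refine tsum_congr fun v => ?_
  congr 2
  push_cast
  ring

/-- [HOL] -/
theorem hol : HOLStmt := by
  intro a b c D ha hD h κ m hm f hf
  obtain ⟨B, hB0, hB⟩ := per_bounded hm hf
  refine (differentiableOn_ser (good ha hD h κ one_pos hB0 hB)).congr fun z _ => ?_
  rw [← th_eq_ser]
  simp

theorem summable_thT {a b c : ℤ} {D : ℕ} (ha : 0 < a) (hD : 0 < D)
    (h : b ^ 2 - 4 * a * c = -(D : ℤ)) (κ : ℕ) {m : ℕ} (hm : 0 < m) {f : ℤ × ℤ → ℂ}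
    (hf : Per m f) {w : ℂ} (hw : 0 < w.im) : Summable (thT a b c D κ f w) := by
  obtain ⟨B, hB0, hB⟩ := per_bounded hm hf
  refine (summable_term (good ha hD h κ one_pos hB0 hB) hw).congr fun v => ?_
  simp only [thT]
  congr 2
  push_cast
  ring

/-- The theta function as a function on the upper half plane. -/
def Th (a b c : ℤ) (D κ : ℕ) (ρ : ℚ) (f : ℤ × ℤ → ℂ) (τ : ℍ) : ℂ := th a b c D κ f (ρ * τ)

theorem Th_eq (a b c : ℤ) (D κ : ℕ) (ρ : ℚ) (f : ℤ × ℤ → ℂ) :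
    Th a b c D κ ρ f =
      serH (fun v : ℤ × ℤ => f v * ev a b D v ^ κ) (fun v => (ρ : ℝ) * Qf a b c v) := by
  funext τ
  exact th_eq_ser a b c D κ ρ f τ

theorem mdiff_Th {a b c : ℤ} {D : ℕ} (ha : 0 < a) (hD : 0 < D)
    (h : b ^ 2 - 4 * a * c = -(D : ℤ)) (κ : ℕ) {ρ : ℚ} (hρ : 0 < ρ) {q : ℕ} (hq : 0 < q)
    {f : ℤ × ℤ → ℂ} (hf : Per q f) : MDifferentiable 𝓘(ℂ) 𝓘(ℂ) (Th a b c D κ ρ f) := by
  obtain ⟨B, hB0, hB⟩ := per_bounded hq hf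
  rw [Th_eq]
  exact mdiff (good ha hD h κ hρ hB0 hB)

theorem bdd_Th {a b c : ℤ} {D : ℕ} (ha : 0 < a) (hD : 0 < D)
    (h : b ^ 2 - 4 * a * c = -(D : ℤ)) (κ : ℕ) {ρ : ℚ} (hρ : 0 < ρ) {q : ℕ} (hq : 0 < q)
    {f : ℤ × ℤ → ℂ} (hf : Per q f) : IsBoundedAtImInfty (Th a b c D κ ρ f) := by
  obtain ⟨B, hB0, hB⟩ := per_bounded hq hf
  rw [Th_eq]
  exact bdd (good ha hD h κ hρ hB0 hB)

/-! ## Cusps -/

/-- The stable family. -/
def V (a b c : ℤ) (D κ : ℕ) : Set (ℍ → ℂ) :=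
  {F | ∃ (C : ℂ) (ρ : ℚ) (f : ℤ × ℤ → ℂ) (q : ℕ), 0 < ρ ∧ 0 < q ∧ Per q f ∧
    ∀ τ, F τ = C * Th a b c D κ ρ f τ}

/-- The multiplier of the translation. -/
def mulE (a b c : ℤ) (ρ : ℚ) (f : ℤ × ℤ → ℂ) (s : ℤ) (v : ℤ × ℤ) : ℂ :=
  f v * cexp (2 * π * I * s * (ρ * Qf a b c v))

theorem per_mulE (a b c : ℤ) (ρ : ℚ) {q : ℕ} {f : ℤ × ℤ → ℂ} (hf : Per q f) (s : ℤ) :
    Per (q * ρ.den) (mulE a b c ρ f s) := by
  intro v u
  have h1 : f (v + ((q * ρ.den : ℕ) : ℤ) • u) = f v := by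
    rw [Nat.cast_mul, mul_smul]
    exact hf v _
  have h2 : ∃ z : ℤ, Qf a b c (v + ((q * ρ.den : ℕ) : ℤ) • u) = Qf a b c v + q * ρ.den * z := by
    refine ⟨2 * a * v.1 * u.1 + b * (v.1 * u.2 + v.2 * u.1) + 2 * c * v.2 * u.2 +
      q * ρ.den * Qf a b c u, ?_⟩
    simp only [Qf, Prod.fst_add, Prod.snd_add, Prod.smul_fst, Prod.smul_snd, smul_eq_mul]
    push_cast
    ring
  obtain ⟨z, hz⟩ := h2
  simp only [mulE, h1]
  congr 1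
  have h3 : (ρ : ℂ) * ρ.den = ρ.num := by exact_mod_cast Rat.mul_den_eq_num ρ
  have h4 : (2 * π * I * s * (ρ * Qf a b c (v + ((q * ρ.den : ℕ) : ℤ) • u)) : ℂ) =
      2 * π * I * s * (ρ * Qf a b c v) + ((s * q * z * ρ.num : ℤ) : ℂ) * (2 * π * I) := by
    rw [hz]
    push_cast
    rw [← h3]
    ring
  rw [h4, Complex.exp_add, Complex.exp_int_mul_two_pi_mul_I, mul_one]

theorem per_hatF (q : ℕ) (hq : 0 < q) (f : ℤ × ℤ → ℂ) : Per q (hatF q f) := by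
  intro v u
  simp only [hatF]
  refine Finset.sum_congr rfl fun i _ => Finset.sum_congr rfl fun j _ => ?_
  congr 1
  have hq' : (q : ℂ) ≠ 0 := by exact_mod_cast hq.ne'
  have h4 : (2 * π * I * ((((v + (q : ℤ) • u).1 * j.1 - (v + (q : ℤ) • u).2 * i.1 : ℤ) : ℂ)) / q) =
      2 * π * I * ((v.1 * j.1 - v.2 * i.1 : ℤ) : ℂ) / q +
        ((u.1 * j.1 - u.2 * i.1 : ℤ) : ℂ) * (2 * π * I) := by
    simp only [Prod.fst_add, Prod.snd_add, Prod.smul_fst, Prod.smul_snd, smul_eq_mul]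
    push_cast
    field_simp
    ring
  rw [h4, Complex.exp_add, Complex.exp_int_mul_two_pi_mul_I, mul_one]

theorem th_add (a b c : ℤ) (D κ : ℕ) (ρ : ℚ) (f : ℤ × ℤ → ℂ) (s : ℤ) (τ : ℂ) :
    th a b c D κ f (ρ * (s + τ)) = th a b c D κ (mulE a b c ρ f s) (ρ * τ) := by
  simp only [th, thT, mulE]
  refine tsum_congr fun v => ?_
  rw [show (2 * π * I * (Qf a b c v : ℂ) * (ρ * (s + τ)) : ℂ) =
    2 * π * I * s * (ρ * Qf a b c v) + 2 * π * I * Qf a b c v * (ρ * τ) by ring, Complex.exp_add]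
  ring

theorem V_T (a b c : ℤ) (D κ : ℕ) {F : ℍ → ℂ} (hF : F ∈ V a b c D κ) (s : ℤ) :
    F ∣[(κ + 1 : ℤ)] (ModularGroup.T ^ s) ∈ V a b c D κ := by
  obtain ⟨C, ρ, f, q, hρ, hq, hf, h⟩ := hF
  refine ⟨C, ρ, mulE a b c ρ f s, q * ρ.den, hρ, Nat.mul_pos hq ρ.den_pos,
    per_mulE a b c ρ hf s, ?_⟩
  intro τ
  have h1 : (F ∣[(κ + 1 : ℤ)] (ModularGroup.T ^ s)) τ = F ((s : ℝ) +ᵥ τ) := by
    have h2 : denom (ModularGroup.T ^ s : SL(2, ℤ)) τ = 1 := by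
      rw [ModularGroup.denom_apply, ModularGroup.coe_T_zpow]
      simp
    rw [ModularForm.SL_slash_apply, UpperHalfPlane.modular_T_zpow_smul, h2, one_zpow, mul_one]
  rw [h1, h]
  simp only [Th]
  rw [← th_add]
  simp

theorem V_S (hP : POStmt) {a b c : ℤ} {D : ℕ} (ha : 0 < a) (hD : 0 < D)
    (hdisc : b ^ 2 - 4 * a * c = -(D : ℤ)) (κ : ℕ) {F : ℍ → ℂ} (hF : F ∈ V a b c D κ) :
    F ∣[(κ + 1 : ℤ)] ModularGroup.S ∈ V a b c D κ := by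
  obtain ⟨C, ρ, f, q, hρ, hq, hf, h⟩ := hF
  refine ⟨C * ((q : ℂ) ^ κ * (-I / ((Real.sqrt D : ℂ) * q ^ 2 * ρ)) ^ (κ + 1)),
    1 / (D * q ^ 2 * ρ), hatF q f, q, by positivity, hq, per_hatF q hq f, ?_⟩
  intro τ
  rw [SlashInvariantForm.slash_S_apply, h]
  have hτ : (τ : ℂ) ≠ 0 := τ.ne_zero
  have hρ' : (ρ : ℂ) ≠ 0 := by exact_mod_cast hρ.ne'
  have hD' : (D : ℂ) ≠ 0 := by exact_mod_cast hD.ne'
  have hq' : (q : ℂ) ≠ 0 := by exact_mod_cast hq.ne'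
  have hs : ((Real.sqrt D : ℝ) : ℂ) ≠ 0 := by
    have : Real.sqrt D ≠ 0 := (Real.sqrt_pos.2 (by exact_mod_cast hD)).ne'
    exact_mod_cast this
  have h3 : 0 < ((ρ : ℂ) * (-(τ : ℂ))⁻¹).im := by
    have h4 : ((ρ : ℂ) * (-(τ : ℂ))⁻¹).im = ρ * (-(τ : ℂ))⁻¹.im := by
      have : (ρ : ℂ) = ((ρ : ℝ) : ℂ) := by push_cast; rfl
      rw [this, Complex.im_ofReal_mul]
    rw [h4]
    exact mul_pos (by exact_mod_cast hρ) τ.im_inv_neg_coe_pos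
  obtain ⟨-, h5⟩ := hP a b c D ha hD hdisc κ q hq f hf _ h3
  simp only [Th]
  rw [h5]
  have h6 : (-1 / ((D : ℂ) * q ^ 2 * (ρ * (-(τ : ℂ))⁻¹))) =
      ((1 / (D * q ^ 2 * ρ) : ℚ) : ℂ) * τ := by
    push_cast
    field_simp
  have h7 : (I / ((Real.sqrt D : ℂ) * q ^ 2 * (ρ * (-(τ : ℂ))⁻¹))) ^ (κ + 1) *
      (τ : ℂ) ^ (-((κ : ℤ) + 1)) = (-I / ((Real.sqrt D : ℂ) * q ^ 2 * ρ)) ^ (κ + 1) := by
    rw [zpow_neg, show ((κ : ℤ) + 1) = ((κ + 1 : ℕ) : ℤ) by push_cast; ring, zpow_natCast,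
      ← inv_pow, ← mul_pow]
    congr 1
    field_simp
  rw [h6, ← h7]
  ring

theorem bdd_all (hP : POStmt) {a b c : ℤ} {D : ℕ} (ha : 0 < a) (hD : 0 < D)
    (hdisc : b ^ 2 - 4 * a * c = -(D : ℤ)) (κ : ℕ) {F : ℍ → ℂ} (hF : F ∈ V a b c D κ)
    (A : SL(2, ℤ)) : IsBoundedAtImInfty (F ∣[(κ + 1 : ℤ)] A) := by
  have h1 : F ∣[(κ + 1 : ℤ)] A ∈ V a b c D κ := by
    refine stable (k := (κ + 1 : ℤ)) (V := V a b c D κ)
      (fun f hf => V_S hP ha hD hdisc κ hf) (fun f hf => ?_) (fun f hf => ?_) A F hF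
    · simpa using V_T a b c D κ hf 1
    · simpa using V_T a b c D κ hf (-1)
  obtain ⟨C, ρ, f, q, hρ, hq, hf, h⟩ := h1
  have h2 : (F ∣[(κ + 1 : ℤ)] A) = C • Th a b c D κ ρ f := by
    funext τ; rw [h]; rfl
  rw [h2]
  have h3 : IsBoundedAtImInfty (Th a b c D κ ρ f) := bdd_Th ha hD hdisc κ hρ hq hf
  exact Filter.BoundedAtFilter.smul C h3

end Vale.Agent.P022.H964
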