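import Vale.Agent.P022.H964.CfHn2
import Vale.Agent.P022.H820.H90
import Vale.Agent.P011.W.Compl
import Vale.Agent.P011.Arith.Quad

/-!
# P022-CFT, block [HNT]: the Hasse norm theorem for cyclic extensions, from prime degree
-/

open scoped TensorProduct
open Finset NumberField IsDedekindDomain

noncomputable section

namespace Vale.Agent.P022.H964.Hn

open Vale.Agent.P022.C (Cyc tw Nm NmR Loc HNTPStmt HNTStmt)
open Vale.Agent.P011.Arith (exists_below)
open Vale.Agent.P011.W (completion_map)

/-- the places used by `Loc` -/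
inductive Plc (K : Type) [Field K] [NumberField K] : Type
  | fin (v : HeightOneSpectrum (𝓞 K)) : Plc K
  | real (φ : K →+* ℝ) : Plc K

section places

variable {K : Type} [Field K] [NumberField K]

/-- the completion -/
def Rr : Plc K → Type
  | .fin v => v.adicCompletion K
  | .real _ => ℝ

instance instFieldRr : ∀ p : Plc K, Field (Rr p)
  | .fin v => inferInstanceAs (Field (v.adicCompletion K))
  | .real _ => inferInstanceAs (Field ℝ)

instance instAlgebraRr : ∀ p : Plc K, Algebra K (Rr p)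
  | .fin v => inferInstanceAs (Algebra K (v.adicCompletion K))
  | .real φ => (φ.toAlgebra : Algebra K ℝ)

theorem loc_iff {L : Type} [Field L] [Algebra K L] (σ : L ≃ₐ[K] L) (n : ℕ) (a : K) :
    Loc σ n a ↔ ∀ p : Plc K, Nm σ n (Rr p) a := by
  constructor
  · rintro ⟨h1, h2⟩ (v | φ)
    · exact h1 v
    · exact h2 φ
  · intro h
    exact ⟨fun v => h (.fin v), fun φ => h (.real φ)⟩

instance (p : Plc K) : Infinite (Rr p) :=
  Infinite.of_injective (algebraMap K (Rr p)) (algebraMap K (Rr p)).injective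

end places

section h90

/-- Hilbert 90 in the letters of the core. -/
theorem h90_local {K M : Type} [Field K] [Field M] [Algebra K M] [FiniteDimensional K M]
    (R : Type) [Field R] [Infinite R] [Algebra K R] (ρ : M ≃ₐ[K] M) {m : ℕ} (hm : 0 < m)
    (h : orderOf ρ = m) : H90 (uact R ρ) m := by
  intro u hu
  let hom : (M ≃ₐ[K] M) →* (M ≃+* M) :=
    { toFun := fun g => (g : M ≃+* M), map_one' := rfl, map_mul' := fun _ _ => rfl }
  have hinj : Function.Injective hom := by
    intro g g' hg
    ext x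
    exact congrArg (fun t : M ≃+* M => t x) hg
  have hpow : ∀ i : ℕ, tw R ρ ^ i = tw R (ρ ^ i) := fun i =>
    (Vale.Agent.P022.CF.H820.act_pow ρ i).symm
  obtain ⟨e, he⟩ := Vale.Agent.P022.H820.H90 R (R ⊗[K] M) M
    ((Algebra.TensorProduct.includeRight : M →ₐ[K] R ⊗[K] M) : M →+* R ⊗[K] M) (tw R ρ) (hom ρ)
    m hm (fun x => rfl) (by rw [orderOf_injective hom hinj, h])
    (by rw [hpow, ← h, pow_orderOf_eq_one]
        ext y
        exact act_one R y) (u : R ⊗[K] M)
    (by
      have h1 := congrArg Units.val hu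
      rw [nm_val] at h1
      rw [← Units.val_one, ← h1]
      exact prod_congr rfl fun i _ => by rw [hpow])
  refine ⟨e, ?_⟩
  ext
  exact he.symm

end h90

theorem hnt_aux (hp : HNTPStmt) (n : ℕ) : ∀ (K L : Type) [Field K] [NumberField K] [Field L]
    [NumberField L] [Algebra K L] (σ : L ≃ₐ[K] L) (_ : Cyc K n σ) (a : K) (_ : a ≠ 0)
    (_ : Loc σ n a), ∃ y : L, ∏ i ∈ range n, (σ ^ i) y = algebraMap K L a := by
  induction n using Nat.strong_induction_on with
  | _ n ih =>
  intro K L _ _ _ _ _ σ hc a ha hloc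
  have hfd : FiniteDimensional K L := Module.finite_of_finrank_pos (by rw [hc.rank]; exact hc.pos)
  have hcard : Nat.card (L ≃ₐ[K] L) = n := by
    apply le_antisymm
    · rw [Nat.card_eq_fintype_card, ← hc.rank]
      exact AlgEquiv.card_le
    · rw [← hc.ord]
      exact orderOf_le_card
  have hgal : IsGalois K L := IsGalois.of_card_aut_eq_finrank K L (by rw [hcard, hc.rank])
  have htop : Subgroup.zpowers σ = ⊤ := Subgroup.eq_top_of_card_eq _ (by
    rw [Nat.card_zpowers, hc.ord, hcard])
  have hσ : ∀ g, g ∈ Subgroup.zpowers σ := fun g => by rw [htop]; exact Subgroup.mem_top g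
  have hcyc : IsCyclic (L ≃ₐ[K] L) := ⟨σ, hσ⟩
  rcases Nat.lt_or_ge 1 n with h1 | h1
  · obtain ⟨m, hm⟩ := Nat.minFac_dvd n
    have hq : (n.minFac).Prime := Nat.minFac_prime h1.ne'
    obtain ⟨q, hq'⟩ : ∃ q, q = n.minFac := ⟨_, rfl⟩
    rw [← hq'] at hm hq
    have hm0 : 0 < m := Nat.pos_of_ne_zero fun h => by
      rw [h, mul_zero] at hm
      omega
    have hmn : m < n := by
      rw [hm]
      exact lt_mul_of_one_lt_left hm0 hq.one_lt
    have hlm : orderOf σ = q * m := hc.ord.trans hm
    subst hm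
    have hc1 : Cyc (FF σ q) m (rho σ q) :=
      ⟨hm0, rho_order σ hlm, by
        rw [← IsGalois.card_aut_eq_finrank, ← orderOf_eq_card_of_forall_mem_zpowers (rho_gen σ q),
          rho_order σ hlm]⟩
    have hc2 : Cyc K q (tau σ q) :=
      ⟨hq.pos, tau_order hσ hlm, by
        rw [← IsGalois.card_aut_eq_finrank, ← orderOf_eq_card_of_forall_mem_zpowers (tau_gen hσ q),
          tau_order hσ hlm]⟩
    refine hn_tower hσ hq.pos hm0 hlm (I := Plc K) (fun p => Rr p) (fun p => ?_)
      (J := Plc (FF σ q)) (fun p => Rr p) ?_ ?_ ?_ a ha ((loc_iff σ _ a).mp hloc)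
    · exact h90_local (Rr p) (σ ^ q) hm0 (by
        rw [orderOf_pow_of_dvd hq.ne_zero ⟨m, hlm⟩, hlm, Nat.mul_div_cancel_left _ hq.pos])
    · rintro (w | φ)
      · obtain ⟨v, hv⟩ := exists_below (F := K) w
        obtain ⟨g, hg⟩ := completion_map hv
        exact ⟨.fin v, g, hg⟩
      · exact ⟨.real (φ.comp (algebraMap K (FF σ q))), RingHom.id ℝ, fun x => rfl⟩
    · intro α hα h
      exact ih m hmn (FF σ q) L (rho σ q) hc1 α hα ((loc_iff _ _ α).mpr h)
    · intro β hβ h
      exact hp K (FF σ q) q hq (tau σ q) hc2 β hβ ((loc_iff _ _ β).mpr h)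
  · have hn1 : n = 1 := le_antisymm h1 hc.pos
    subst hn1
    exact ⟨algebraMap K L a, by simp⟩

/-- **[HNT]** the Hasse norm theorem for cyclic extensions, from prime degree -/
theorem HNT (hp : HNTPStmt) : HNTStmt := fun K L _ _ _ _ _ n σ hc a ha hloc =>
  hnt_aux hp n K L σ hc a ha hloc

end Vale.Agent.P022.H964.Hn
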