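import Vale.Agent.P022.H964.Lat

/-!
# [MFT]: the theta series is a modular form for `Gamma1 (D m²)`
-/

open UpperHalfPlane hiding I
open Filter Topology Matrix.SpecialLinearGroup CongruenceSubgroup Complex
open scoped MatrixGroups ModularForm Manifold Real ComplexConjugate

noncomputable section

namespace Vale.Agent.P022.H964

open Vale.Agent.P022

/-- the theta series as a function on the upper half plane -/
def T0 (a b c : ℤ) (D κ : ℕ) (f : ℤ × ℤ → ℂ) (τ : ℍ) : ℂ := th a b c D κ f τ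

theorem T0_eq (a b c : ℤ) (D κ : ℕ) (f : ℤ × ℤ → ℂ) : T0 a b c D κ f = Th a b c D κ 1 f := by
  funext τ
  simp [T0, Th]

theorem slash_law (hL : LAWStmt) {a b c : ℤ} {D : ℕ} (ha : 0 < a) (hD : Odd D)
    (h : b ^ 2 - 4 * a * c = -(D : ℤ)) (κ : ℕ) {m : ℕ} (hm : 0 < m) {f : ℤ × ℤ → ℂ}
    (hf : Per m f) (γ : SL(2, ℤ)) (hγ : ((D * m ^ 2 : ℕ) : ℤ) ∣ γ 1 0) (τ : ℍ) :
    (T0 a b c D κ f ∣[((κ + 1 : ℕ) : ℤ)] γ) τ =
      jacobiSym (γ 1 1) D * th a b c D κ (fun v => f ((γ 1 1) • v)) τ := by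
  have hdet : γ 0 0 * γ 1 1 - γ 0 1 * γ 1 0 = 1 := by
    have := γ.det_coe
    rwa [Matrix.det_fin_two] at this
  have h1 := hL a b c D ha hD h κ m hm f hf (γ 0 0) (γ 0 1) (γ 1 0) (γ 1 1) hdet hγ (τ : ℂ) τ.im_pos
  have hden : denom γ τ = (γ 1 0 : ℂ) * τ + γ 1 1 := by
    rw [ModularGroup.denom_apply]
  have h2 : ((γ • τ : ℍ) : ℂ) = ((γ 0 0 : ℂ) * τ + γ 0 1) / ((γ 1 0 : ℂ) * τ + γ 1 1) := by
    rw [UpperHalfPlane.coe_specialLinearGroup_apply]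
    simp
  have hne : (γ 1 0 : ℂ) * τ + γ 1 1 ≠ 0 := by
    rw [← hden]; exact UpperHalfPlane.denom_ne_zero _ _
  rw [ModularForm.SL_slash_apply, hden]
  simp only [T0]
  rw [h2, h1, zpow_neg, zpow_natCast]
  field_simp

theorem inv_law (hL : LAWStmt) {a b c : ℤ} {D : ℕ} (ha : 0 < a) (hD : Odd D)
    (h : b ^ 2 - 4 * a * c = -(D : ℤ)) (κ : ℕ) {m : ℕ} (hm : 0 < m) {f : ℤ × ℤ → ℂ}
    (hf : Per m f) (γ : SL(2, ℤ)) (hγ : γ ∈ Gamma1 (D * m ^ 2)) :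
    T0 a b c D κ f ∣[((κ + 1 : ℕ) : ℤ)] γ = T0 a b c D κ f := by
  funext τ
  rw [Gamma1_mem] at hγ
  obtain ⟨-, h11, h10⟩ := hγ
  have h10' : ((D * m ^ 2 : ℕ) : ℤ) ∣ γ 1 0 := (ZMod.intCast_zmod_eq_zero_iff_dvd _ _).1 h10
  have h11' : ((D * m ^ 2 : ℕ) : ℤ) ∣ γ 1 1 - 1 := by
    rw [← ZMod.intCast_zmod_eq_zero_iff_dvd]
    push_cast
    rw [h11, sub_self]
  rw [slash_law hL ha hD h κ hm hf γ h10']
  have hJ : jacobiSym (γ 1 1) D = 1 := by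
    have h3 : (D : ℤ) ∣ γ 1 1 - 1 := dvd_trans ⟨(m : ℤ) ^ 2, by push_cast; ring⟩ h11'
    have h4 : γ 1 1 % (D : ℤ) = 1 % (D : ℤ) := (Int.modEq_iff_dvd.2 h3).symm
    rw [jacobiSym.mod_left, h4, ← jacobiSym.mod_left, jacobiSym.one_left]
  have hF : (fun v => f ((γ 1 1) • v)) = f := by
    funext v
    obtain ⟨z, hz⟩ := dvd_trans (⟨(D : ℤ) * m, by push_cast; ring⟩ :
      (m : ℤ) ∣ ((D * m ^ 2 : ℕ) : ℤ)) h11'
    have h5 : (γ 1 1) • v = v + (m : ℤ) • (z • v) := by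
      rw [smul_smul, ← hz, sub_smul, one_smul]
      abel
    rw [h5, hf]
  rw [hJ, hF, Int.cast_one, one_mul]
  rfl

theorem dia_law (hL : LAWStmt) {a b c : ℤ} {D : ℕ} (ha : 0 < a) (hD : Odd D)
    (h : b ^ 2 - 4 * a * c = -(D : ℤ)) (κ : ℕ) {m : ℕ} (hm : 0 < m) {f : ℤ × ℤ → ℂ}
    (hf : Per m f) (ℓ : PA (D * m ^ 2)) (τ : ℍ) :
    dFun (D * m ^ 2) (κ + 1) ℓ (T0 a b c D κ f) τ =
      jacobiSym (ℓ.1 : ℤ) D * th a b c D κ (fun v => f ((ℓ.1 : ℤ) • v)) τ := by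
  have h10 : (gd (D * m ^ 2) ℓ.1 ℓ.coprime) 1 0 = ((D * m ^ 2 : ℕ) : ℤ) := by
    simp [gd]
  have h11 : (gd (D * m ^ 2) ℓ.1 ℓ.coprime) 1 1 = (ℓ.1 : ℤ) := by
    simp [gd]
  have := slash_law hL ha hD h κ hm hf (gd (D * m ^ 2) ℓ.1 ℓ.coprime) (by rw [h10]) τ
  rw [h11] at this
  exact this

/-- The common end of the two theorems. -/
theorem mft_of (hL : LAWStmt)
    (hb : ∀ (a b c : ℤ) (D : ℕ) (_ : 0 < a) (_ : 0 < D) (_ : b ^ 2 - 4 * a * c = -(D : ℤ))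
      (κ m : ℕ) (_ : 0 < m) (f : ℤ × ℤ → ℂ) (_ : Per m f) (A : SL(2, ℤ)),
      IsBoundedAtImInfty (T0 a b c D κ f ∣[((κ + 1 : ℕ) : ℤ)] A)) : MFTStmt := by
  intro a b c D ha hD h κ m hm f hf
  have hD0 : 0 < D := hD.pos
  have : NeZero (D * m ^ 2) := ⟨by positivity⟩
  refine ⟨mk (k := ((κ + 1 : ℕ) : ℤ)) (T0 a b c D κ f) ?_ (hb a b c D ha hD0 h κ m hm f hf)
    (fun γ hγ => inv_law hL ha hD h κ hm hf γ hγ), fun τ => rfl,
    fun ℓ τ => dia_law hL ha hD h κ hm hf ℓ τ⟩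
  rw [T0_eq]
  exact mdiff_Th ha hD0 h κ one_pos hm hf

/-- **[MFT] from [LAW] and [PO].** -/
theorem MFT (hL : LAWStmt) (hP : POStmt) : MFTStmt := by
  refine mft_of hL fun a b c D ha hD h κ m hm f hf A => ?_
  have := bdd_all hP ha hD h κ (F := T0 a b c D κ f)
    ⟨1, 1, f, m, one_pos, hm, hf, fun τ => by rw [T0_eq, one_mul]⟩ A
  simpa using this

/-- **[MFT] from [LAW] and [BDD].** -/
theorem MFT_bdd (hL : LAWStmt) (hB : BDDStmt) : MFTStmt := by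
  refine mft_of hL fun a b c D ha hD h κ m hm f hf A => ?_
  have hdet : A 0 0 * A 1 1 - A 0 1 * A 1 0 = 1 := by
    have := A.det_coe
    rwa [Matrix.det_fin_two] at this
  obtain ⟨K, hK⟩ := hB a b c D ha hD h κ m hm f hf (A 0 0) (A 0 1) (A 1 0) (A 1 1) hdet
  rw [UpperHalfPlane.isBoundedAtImInfty_iff]
  refine ⟨K, 1, fun τ hτ => ?_⟩
  have hden : denom A τ = (A 1 0 : ℂ) * τ + A 1 1 := by
    rw [ModularGroup.denom_apply]
  have h2 : ((A • τ : ℍ) : ℂ) = ((A 0 0 : ℂ) * τ + A 0 1) / ((A 1 0 : ℂ) * τ + A 1 1) := by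
    rw [UpperHalfPlane.coe_specialLinearGroup_apply]
    simp
  have hne : (A 1 0 : ℂ) * τ + A 1 1 ≠ 0 := by
    rw [← hden]; exact UpperHalfPlane.denom_ne_zero _ _
  rw [ModularForm.SL_slash_apply, hden]
  simp only [T0]
  rw [h2, zpow_neg, zpow_natCast, norm_mul, norm_inv, norm_pow]
  rw [← div_eq_mul_inv, div_le_iff₀ (by positivity)]
  exact hK τ hτ

end Vale.Agent.P022.H964
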