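import Mathlib

/-!
# P022-CFT: the formal part of the Hasse norm theorem for cyclic extensions ([HN]), and of the
crossing ([X])

Everything takes place in commutative groups with an automorphism (unit groups of algebras).
-/

namespace Vale.Agent.P022.H964

open Finset

variable {A : Type*} [CommGroup A]

/-- The norm `∏_{i < k} s^i x`. -/
def nm (s : MulAut A) (k : ℕ) (x : A) : A := ∏ i ∈ range k, (s ^ i) x

/-- Hilbert 90. -/
def H90 (s : MulAut A) (k : ℕ) : Prop := ∀ u : A, nm s k u = 1 → ∃ w : A, u * w = s w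

theorem nm_mul (s : MulAut A) (k : ℕ) (x y : A) : nm s k (x * y) = nm s k x * nm s k y := by
  simp [nm, Finset.prod_mul_distrib]

theorem nm_one (s : MulAut A) (k : ℕ) : nm s k 1 = 1 := by simp [nm]

theorem nm_inv (s : MulAut A) (k : ℕ) (x : A) : nm s k x⁻¹ = (nm s k x)⁻¹ := by
  simp [nm, Finset.prod_inv_distrib]

theorem pow_comm (s : MulAut A) (i : ℕ) (x : A) : (s ^ i) (s x) = s ((s ^ i) x) := by
  rw [← MulAut.mul_apply, ← MulAut.mul_apply, (Commute.refl s).pow_left i |>.eq]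

/-- An automorphism commuting with `s` commutes with the norm. -/
theorem nm_comm (s t : MulAut A) (h : s * t = t * s) (k : ℕ) (x : A) :
    nm s k (t x) = t (nm s k x) := by
  rw [nm, nm, map_prod]
  refine prod_congr rfl fun i _ => ?_
  have h1 : s ^ i * t = t * s ^ i := (Commute.pow_left (h : Commute s t) i).eq
  rw [← MulAut.mul_apply, ← MulAut.mul_apply, h1]

theorem nm_self (s : MulAut A) (k : ℕ) (x : A) : nm s k (s x) = s (nm s k x) :=
  nm_comm s s rfl k x

/-- `s (N x) * x = N x * s^k x`. -/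
theorem nm_shift (s : MulAut A) (k : ℕ) (x : A) : s (nm s k x) * x = nm s k x * (s ^ k) x := by
  have h1 : nm s (k + 1) x = nm s k x * (s ^ k) x := by rw [nm, prod_range_succ, nm]
  have h2 : nm s (k + 1) x = s (nm s k x) * x := by
    rw [nm, prod_range_succ', nm, map_prod]
    congr 1
    · refine prod_congr rfl fun i _ => ?_
      rw [pow_succ', MulAut.mul_apply]
  rw [← h2, h1]

theorem nm_fix (s : MulAut A) (k : ℕ) {x : A} (h : s x = x) : nm s k x = x ^ k := by
  have h1 : ∀ i : ℕ, (s ^ i) x = x := by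
    intro i
    induction i with
    | zero => simp
    | succ i ih => rw [pow_succ, MulAut.mul_apply, h, ih]
  simp [nm, h1]

theorem nm_nm (s : MulAut A) (l m : ℕ) (x : A) : nm s (l * m) x = nm (s ^ l) m (nm s l x) := by
  induction m with
  | zero => simp [nm]
  | succ m ih =>
    have h1 : nm (s ^ l) (m + 1) (nm s l x) =
        nm (s ^ l) m (nm s l x) * ((s ^ l) ^ m) (nm s l x) := by
      rw [nm, prod_range_succ, ← nm]
    have h2 : nm s (l * (m + 1)) x = nm s (l * m) x * ∏ i ∈ range l, (s ^ (l * m + i)) x := by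
      rw [nm, Nat.mul_succ, prod_range_add, ← nm]
    rw [h1, h2, ih]
    congr 1
    rw [nm, map_prod]
    refine prod_congr rfl fun i _ => ?_
    rw [← pow_mul, ← MulAut.mul_apply, ← pow_add]

theorem map_nm {B : Type*} [CommGroup B] (s : MulAut A) (t : MulAut B) (f : A →* B)
    (h : ∀ x, f (s x) = t (f x)) (k : ℕ) (x : A) : f (nm s k x) = nm t k (f x) := by
  have h1 : ∀ (i : ℕ) (x : A), f ((s ^ i) x) = (t ^ i) (f x) := by
    intro i
    induction i with
    | zero => intro x; simp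
    | succ i ih => intro x; rw [pow_succ, MulAut.mul_apply, ih, h, pow_succ, MulAut.mul_apply]
  rw [nm, nm, map_prod]
  exact prod_congr rfl fun i _ => h1 i x

/-- the local half of the dévissage -/
theorem hn_local (s : MulAut A) (l m : ℕ) (h90 : H90 (s ^ l) m) {b z : A} (hb : s b = b)
    (h : b ^ m = nm s (l * m) z) : ∃ z' : A, (s ^ l) z' = z' ∧ nm s l z' = b := by
  have hρb : (s ^ l) b = b := by
    have h1 : ∀ i : ℕ, (s ^ i) b = b := by
      intro i
      induction i with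
      | zero => simp
      | succ i ih => rw [pow_succ, MulAut.mul_apply, hb, ih]
    exact h1 l
  obtain ⟨c, hc⟩ := h90 (b * (nm s l z)⁻¹) (by
    rw [nm_mul, nm_inv, nm_fix _ _ hρb, h, nm_nm, mul_inv_cancel])
  -- `b = T(z) ρ(c)/c = T(z σ(c)/c)`
  refine ⟨z * (s c * c⁻¹), ?_, ?_⟩
  · have h2 : nm s l (z * (s c * c⁻¹)) = b := by
      rw [nm_mul, nm_mul, nm_inv, nm_self]
      have h3 := nm_shift s l c
      have h4 : s (nm s l c) = nm s l c * (s ^ l) c * c⁻¹ := by
        rw [← h3]; group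
      rw [h4, ← hc]
      have : nm s l z * (nm s l c * (b * (nm s l z)⁻¹ * c) * c⁻¹ * (nm s l c)⁻¹) =
        b * (nm s l z * (nm s l z)⁻¹) * (nm s l c * (nm s l c)⁻¹) * (c * c⁻¹) := by
        simp only [mul_comm, mul_left_comm, mul_assoc]
      rw [this]
      simp
    have h5 := nm_shift s l (z * (s c * c⁻¹))
    rw [h2, hb] at h5
    exact (mul_left_cancel h5).symm
  · rw [nm_mul, nm_mul, nm_inv, nm_self]
    have h3 := nm_shift s l c
    have h4 : s (nm s l c) = nm s l c * (s ^ l) c * c⁻¹ := by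
      rw [← h3]; group
    rw [h4, ← hc]
    have : nm s l z * (nm s l c * (b * (nm s l z)⁻¹ * c) * c⁻¹ * (nm s l c)⁻¹) =
      b * (nm s l z * (nm s l z)⁻¹) * (nm s l c * (nm s l c)⁻¹) * (c * c⁻¹) := by
      simp only [mul_comm, mul_left_comm, mul_assoc]
    rw [this]
    simp

/-- **Dévissage of the Hasse norm theorem**: one step. -/
theorem hn_step {M : Type*} [CommGroup M] (σ : MulAut M) {I : Type*} {A : I → Type*}
    [∀ v, CommGroup (A v)] (s : ∀ v, MulAut (A v)) (ι : ∀ v, M →* A v)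
    (hι : ∀ v x, ι v (σ x) = s v (ι v x)) (l m : ℕ)
    (h90 : H90 (σ ^ l) m) (h90v : ∀ v, H90 (s v ^ l) m)
    (ind : ∀ α : M, (σ ^ l) α = α → (∀ v, ∃ y, nm (s v ^ l) m y = ι v α) →
      ∃ u, nm (σ ^ l) m u = α)
    (prime : ∀ β : M, σ β = β → (∀ v, ∃ z, (s v ^ l) z = z ∧ nm (s v) l z = ι v β) →
      ∃ x, (σ ^ l) x = x ∧ nm σ l x = β)
    (α : M) (hα : σ α = α) (hloc : ∀ v, ∃ y, nm (s v) (l * m) y = ι v α) :
    ∃ x, nm σ (l * m) x = α := by
  have hρα : (σ ^ l) α = α := by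
    have h1 : ∀ i : ℕ, (σ ^ i) α = α := by
      intro i
      induction i with
      | zero => simp
      | succ i ih => rw [pow_succ, MulAut.mul_apply, hα, ih]
    exact h1 l
  obtain ⟨u, hu⟩ := ind α hρα fun v => by
    obtain ⟨y, hy⟩ := hloc v
    exact ⟨nm (s v) l y, by rw [← nm_nm, hy]⟩
  -- `σ(u)/u = ρ(w)/w`
  have hcomm : σ ^ l * σ = σ * σ ^ l := ((Commute.refl σ).pow_left l).eq
  obtain ⟨w, hw⟩ := h90 (σ u * u⁻¹) (by
    rw [nm_mul, nm_inv, nm_comm _ _ hcomm, hu, hα, mul_inv_cancel])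
  set β : M := u * (nm σ l w)⁻¹ with hβ
  have hσβ : σ β = β := by
    have h3 := nm_shift σ l w
    have h4 : σ (nm σ l w) = nm σ l w * (σ ^ l) w * w⁻¹ := by
      rw [← h3]; group
    rw [hβ, map_mul, map_inv, h4, ← hw]
    have : σ u * (nm σ l w * (σ u * u⁻¹ * w) * w⁻¹)⁻¹ =
      u * (nm σ l w)⁻¹ * (σ u * (σ u)⁻¹) * (w * w⁻¹) := by
      simp only [mul_inv_rev, inv_inv, mul_comm, mul_left_comm, mul_assoc]
    rw [this]
    simp
  have hρβ : (σ ^ l) β = β := by
    have h1 : ∀ i : ℕ, (σ ^ i) β = β := by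
      intro i
      induction i with
      | zero => simp
      | succ i ih => rw [pow_succ, MulAut.mul_apply, hσβ, ih]
    exact h1 l
  have hu2 : u = β * nm σ l w := by rw [hβ]; group
  have hαβ : α = β ^ m * nm σ (l * m) w := by
    rw [← hu, hu2, nm_mul, nm_fix _ _ hρβ, ← nm_nm]
  obtain ⟨x, -, hx⟩ := prime β hσβ fun v => by
    obtain ⟨y, hy⟩ := hloc v
    refine hn_local (s v) l m (h90v v) (z := y * (ι v w)⁻¹) ?_ ?_
    · rw [← hι, hσβ]
    · have h5 : (ι v) α = (ι v) β ^ m * (ι v) (nm σ (l * m) w) := by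
        rw [← map_pow, ← map_mul, ← hαβ]
      rw [nm_mul, nm_inv, hy, ← map_nm σ (s v) (ι v) (hι v), h5, mul_inv_cancel_right]
  refine ⟨x * w, ?_⟩
  rw [nm_mul, nm_nm, hx, nm_fix _ _ hρβ, ← hαβ]

/-! ## The crossing -/

/-- **[X], global half**: from `α = N_σ y`, an element `z` with `τ(y)/y = σ(z)/z`; `β = N_τ z` is
fixed by `σ` and `τ`. -/
theorem cross (σ τ : MulAut A) (hc : σ * τ = τ * σ) (n N : ℕ) (hτ : τ ^ N = 1)
    (h90 : H90 σ n) {α y : A} (hα : τ α = α) (hy : nm σ n y = α) :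
    ∃ z : A, τ y * z = y * σ z ∧ σ (nm τ N z) = nm τ N z ∧ τ (nm τ N z) = nm τ N z := by
  obtain ⟨z, hz⟩ := h90 (τ y * y⁻¹) (by
    rw [nm_mul, nm_inv, nm_comm _ _ hc, hy, hα, mul_inv_cancel])
  refine ⟨z, ?_, ?_, ?_⟩
  · rw [← hz]
    have : y * (τ y * y⁻¹ * z) = τ y * z * (y * y⁻¹) := by
      simp only [mul_comm, mul_left_comm, mul_assoc]
    rw [this, mul_inv_cancel, mul_one]
  · rw [← nm_comm _ _ hc.symm, ← hz, nm_mul, nm_mul, nm_inv, nm_self]
    have h3 := nm_shift τ N y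
    rw [hτ, MulAut.one_apply] at h3
    rw [mul_right_cancel h3, mul_inv_cancel, one_mul]
  · have h3 := nm_shift τ N z
    rw [hτ, MulAut.one_apply] at h3
    exact mul_right_cancel h3

/-- **[X], local half**: if `α = N_σ y'` with `y'` fixed by `τ`, then `β = N_τ c` with `c` fixed
by `σ`. -/
theorem cross_local (σ τ : MulAut A) (hc : σ * τ = τ * σ) (n N : ℕ) (hτ : τ ^ N = 1)
    (h90 : H90 σ n) {α y y' z : A} (hy : nm σ n y = α) (hz : τ y * z = y * σ z)
    (hy' : nm σ n y' = α) (hy'2 : τ y' = y') : ∃ c : A, σ c = c ∧ nm τ N c = nm τ N z := by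
  obtain ⟨u, hu⟩ := h90 (y * y'⁻¹) (by rw [nm_mul, nm_inv, hy, hy', mul_inv_cancel])
  -- `y = y' σ(u)/u`
  have hy3 : y = y' * (σ u * u⁻¹) := by rw [← hu]; group; simp [mul_comm]
  have hστ : ∀ x, σ (τ x) = τ (σ x) := fun x => by
    rw [← MulAut.mul_apply, hc, MulAut.mul_apply]
  refine ⟨z * (τ u * u⁻¹)⁻¹, ?_, ?_⟩
  · have h1 : σ z = z * (τ y * y⁻¹) := by
      have : σ z = y⁻¹ * (y * σ z) := by group
      rw [this, ← hz]
      simp only [mul_comm, mul_left_comm, mul_assoc]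
    rw [map_mul, map_inv, map_mul, map_inv, h1, hστ, hy3, map_mul, map_mul, map_inv, hy'2]
    simp only [mul_inv_rev, inv_inv]
    have : z * (y' * (τ (σ u) * (τ u)⁻¹) * (u * (σ u)⁻¹ * y'⁻¹)) * (σ u * (τ (σ u))⁻¹) =
      z * (u * (τ u)⁻¹) * (y' * y'⁻¹) * (τ (σ u) * (τ (σ u))⁻¹) * (σ u * (σ u)⁻¹) := by
      simp only [mul_comm, mul_left_comm, mul_assoc]
    rw [this]
    simp
  · rw [nm_mul, nm_inv, nm_mul, nm_inv, nm_self]
    have h3 := nm_shift τ N u
    rw [hτ, MulAut.one_apply] at h3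
    rw [mul_right_cancel h3, mul_inv_cancel, inv_one, mul_one]

end Vale.Agent.P022.H964
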