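import Vale.Agent.P022.H964.CfHn
import Vale.Agent.P022.H567.Cft

/-!
# P022-CFT: the Hasse norm theorem for cyclic extensions, dévissage in the letters of CF

Nothing here is about number fields.
-/

set_option linter.unusedSectionVars false

open scoped TensorProduct
open Finset

noncomputable section

namespace Vale.Agent.P022.H964.Hn

section act

variable {K L : Type*} [Field K] [Field L] [Algebra K L]

/-- the action of the Galois group on `R ⊗[K] L` -/
abbrev act (R : Type*) [CommRing R] [Algebra K R] (g : L ≃ₐ[K] L) : R ⊗[K] L ≃ₐ[R] R ⊗[K] L :=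
  Algebra.TensorProduct.congr AlgEquiv.refl g

variable (R : Type*) [CommRing R] [Algebra K R]

theorem act_tmul (g : L ≃ₐ[K] L) (r : R) (x : L) : act R g (r ⊗ₜ x) = r ⊗ₜ g x := rfl

theorem act_mul (g h : L ≃ₐ[K] L) (y : R ⊗[K] L) : act R (g * h) y = act R g (act R h y) := by
  induction y using TensorProduct.induction_on with
  | zero => simp only [map_zero]
  | tmul r x => rfl
  | add a b ha hb => simp only [map_add, ha, hb]

theorem act_one (y : R ⊗[K] L) : act R (1 : L ≃ₐ[K] L) y = y := by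
  induction y using TensorProduct.induction_on with
  | zero => simp only [map_zero]
  | tmul r x => rfl
  | add a b ha hb => simp only [map_add, ha, hb]

/-- the action on the units -/
def uact : (L ≃ₐ[K] L) →* MulAut (R ⊗[K] L)ˣ where
  toFun g := Units.mapEquiv (act R g : R ⊗[K] L ≃* R ⊗[K] L)
  map_one' := by
    ext y
    exact act_one R _
  map_mul' g h := by
    ext y
    exact act_mul R g h _

theorem uact_val (g : L ≃ₐ[K] L) (y : (R ⊗[K] L)ˣ) :
    ((uact R g y : (R ⊗[K] L)ˣ) : R ⊗[K] L) = act R g y := rfl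

/-- the product over a cyclic group -/
theorem prod_eq_nm [Fintype (L ≃ₐ[K] L)] {A : Type*} [CommGroup A] (f : (L ≃ₐ[K] L) →* MulAut A)
    {σ : L ≃ₐ[K] L}
    (hσ : ∀ g, g ∈ Subgroup.zpowers σ) (y : A) :
    ∏ g : L ≃ₐ[K] L, f g y = nm (f σ) (orderOf σ) y := by
  classical
  rw [← IsCyclic.image_range_orderOf hσ, nm, Finset.prod_image]
  · simp only [map_pow]
  · intro i hi j hj h
    exact pow_injOn_Iio_orderOf (by simpa using hi) (by simpa using hj) h

end act

section Nm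

open Vale.Agent.P022.C (Cyc tw Nm)

variable {K L : Type} [Field K] [Field L] [Algebra K L] (R : Type) [Field R] [Algebra K R]

/-- the units coming from the field -/
def ιu : Lˣ →* (R ⊗[K] L)ˣ :=
  Units.map ((Algebra.TensorProduct.includeRight : L →ₐ[K] R ⊗[K] L) : L →* R ⊗[K] L)

theorem ιu_val (x : Lˣ) : ((ιu R x : (R ⊗[K] L)ˣ) : R ⊗[K] L) = 1 ⊗ₜ (x : L) := rfl

theorem nm_val (σ : L ≃ₐ[K] L) (n : ℕ) (y : (R ⊗[K] L)ˣ) :
    ((nm (uact R σ) n y : (R ⊗[K] L)ˣ) : R ⊗[K] L) = ∏ i ∈ range n, tw R (σ ^ i) (y : R ⊗[K] L) := by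
  rw [nm, Units.coe_prod]
  refine prod_congr rfl fun i _ => ?_
  rw [← map_pow]
  rfl

theorem alg_tmul (α : K) : algebraMap K (R ⊗[K] L) α = 1 ⊗ₜ (algebraMap K L α) := by
  rw [← Algebra.TensorProduct.includeRight_apply, AlgHom.commutes]

theorem nm_iff (σ : L ≃ₐ[K] L) {n : ℕ} (hn : 0 < n) (α : K) (hα : α ≠ 0) :
    Nm σ n R α ↔ ∃ y : (R ⊗[K] L)ˣ, nm (uact R σ) n y =
      ιu R (Units.map (algebraMap K L : K →* L) (Units.mk0 α hα)) := by
  constructor
  · rintro ⟨y, hy⟩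
    have hu : IsUnit (∏ i ∈ range n, tw R (σ ^ i) y) := by
      rw [hy]
      exact (IsUnit.mk0 α hα).map _
    have hy1 : IsUnit y := by
      have h1 := isUnit_of_dvd_unit (Finset.dvd_prod_of_mem (fun i => tw R (σ ^ i) y)
        (Finset.mem_range.mpr hn)) hu
      have h2 : tw R (σ ^ 0) y = y := act_one R y
      rwa [h2] at h1
    obtain ⟨y, rfl⟩ := hy1
    refine ⟨y, ?_⟩
    ext
    rw [nm_val, hy, alg_tmul]
    rfl
  · rintro ⟨y, hy⟩
    refine ⟨y, ?_⟩
    rw [← nm_val, hy, alg_tmul]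
    rfl

end Nm

section transfer

variable {K F M : Type*} [Field K] [Field F] [Field M] [Algebra K F] [Algebra F M] [Algebra K M]
  [IsScalarTower K F M] {R S : Type*} [CommRing R] [CommRing S] [Algebra K R] [Algebra F S]

/-- base change of the tensor product along `K → F`, `R → S` -/
theorem exists_transfer (g : R →+* S)
    (hg : ∀ x : K, g (algebraMap K R x) = algebraMap F S (algebraMap K F x)) :
    ∃ Φ : R ⊗[K] M →+* S ⊗[F] M, ∀ r x, Φ (r ⊗ₜ x) = g r ⊗ₜ x := by
  let _ : Algebra K (S ⊗[F] M) :=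
    ((algebraMap F (S ⊗[F] M)).comp (algebraMap K F)).toAlgebra
  have hal : ∀ c : K, algebraMap K (S ⊗[F] M) c = algebraMap F (S ⊗[F] M) (algebraMap K F c) :=
    fun _ => rfl
  let f1 : R →ₐ[K] S ⊗[F] M :=
    { ((Algebra.TensorProduct.includeLeft : S →ₐ[F] S ⊗[F] M) : S →+* S ⊗[F] M).comp g with
      commutes' := fun c => by
        change (Algebra.TensorProduct.includeLeft : S →ₐ[F] S ⊗[F] M) (g (algebraMap K R c)) = _
        rw [hg, AlgHom.commutes, hal] }
  let f2 : M →ₐ[K] S ⊗[F] M :=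
    { ((Algebra.TensorProduct.includeRight : M →ₐ[F] S ⊗[F] M) : M →+* S ⊗[F] M) with
      commutes' := fun c => by
        change (Algebra.TensorProduct.includeRight : M →ₐ[F] S ⊗[F] M) (algebraMap K M c) = _
        rw [IsScalarTower.algebraMap_apply K F M, AlgHom.commutes, hal] }
  have hc : ∀ x y, Commute (f1 x) (f2 y) := fun _ _ => Commute.all _ _
  refine ⟨(Algebra.TensorProduct.lift f1 f2 hc : R ⊗[K] M →ₐ[K] S ⊗[F] M), fun r x => ?_⟩
  change Algebra.TensorProduct.lift f1 f2 hc (r ⊗ₜ x) = _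
  rw [Algebra.TensorProduct.lift_tmul]
  change (g r ⊗ₜ[F] (1 : M)) * ((1 : S) ⊗ₜ[F] x) = _
  rw [Algebra.TensorProduct.tmul_mul_tmul, mul_one, one_mul]

omit [Algebra K F] [IsScalarTower K F M] in
/-- the transfer commutes with the actions -/
theorem transfer_act {g : R →+* S} {Φ : R ⊗[K] M →+* S ⊗[F] M}
    (hΦ : ∀ r x, Φ (r ⊗ₜ x) = g r ⊗ₜ x) (ρ : M ≃ₐ[K] M) (ρ' : M ≃ₐ[F] M)
    (h : ∀ x, ρ' x = ρ x) (y : R ⊗[K] M) : Φ (act R ρ y) = act S ρ' (Φ y) := by
  induction y using TensorProduct.induction_on with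
  | zero => simp only [map_zero]
  | tmul r x => rw [act_tmul, hΦ, hΦ, act_tmul, h]
  | add a b ha hb => simp only [map_add, ha, hb]

end transfer

section fixed

variable {K M : Type*} [Field K] [Field M] [Algebra K M] (R : Type*) [CommRing R] [Algebra K R]

/-- the tensor product with an intermediate field -/
def incl (F : IntermediateField K M) : R ⊗[K] F →ₐ[R] R ⊗[K] M :=
  Algebra.TensorProduct.map (AlgHom.id R R) F.val

theorem incl_tmul (F : IntermediateField K M) (r : R) (x : F) :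
    incl R F (r ⊗ₜ x) = r ⊗ₜ (x : M) := rfl

theorem incl_injective (F : IntermediateField K M) : Function.Injective (incl R F) := by
  have h1 : Function.Injective (F.val.toLinearMap.lTensor R) :=
    Module.Flat.lTensor_preserves_injective_linearMap _ F.val.injective
  exact h1

theorem incl_prod (F : IntermediateField K M) (s : Finset ℕ) (f : ℕ → R ⊗[K] F) :
    incl R F (∏ i ∈ s, f i) = ∏ i ∈ s, incl R F (f i) := by
  classical
  induction s using Finset.induction_on with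
  | empty => exact (incl R F).map_one'
  | insert a s h ih =>
    rw [prod_insert h, prod_insert h, ← ih]
    exact (incl R F).map_mul' _ _

/-- the fixed points -/
theorem mem_incl (F : IntermediateField K M) (ρ : M ≃ₐ[K] M)
    (hF : ∀ x : M, x ∈ F ↔ ρ x = x) {y : R ⊗[K] M} (hy : act R ρ y = y) :
    ∃ z : R ⊗[K] F, incl R F z = y := by
  have hex : Function.Exact F.val.toLinearMap
      ((ρ : M →ₐ[K] M).toLinearMap - (LinearMap.id : M →ₗ[K] M)) := by
    intro x
    rw [LinearMap.sub_apply, sub_eq_zero]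
    change ρ x = x ↔ _
    rw [← hF]
    exact ⟨fun h => ⟨⟨x, h⟩, rfl⟩, fun ⟨z, hz⟩ => hz ▸ z.2⟩
  have h1 := Module.Flat.lTensor_exact R hex
  have h2 : ∀ y : R ⊗[K] M, ((ρ : M →ₐ[K] M).toLinearMap -
      (LinearMap.id : M →ₗ[K] M)).lTensor R y = act R ρ y - y := by
    intro y
    induction y using TensorProduct.induction_on with
    | zero => simp only [map_zero, sub_zero]
    | tmul r x => rw [LinearMap.lTensor_tmul, act_tmul, LinearMap.sub_apply, TensorProduct.tmul_sub]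
                  rfl
    | add a b ha hb => simp only [map_add, ha, hb]; ring
  obtain ⟨z, hz⟩ := (h1 y).mp (by rw [h2, hy, sub_self])
  exact ⟨z, hz⟩

/-- the inclusion commutes with the actions -/
theorem incl_act (F : IntermediateField K M) (τ : F ≃ₐ[K] F) (σ : M ≃ₐ[K] M)
    (h : ∀ x : F, ((τ x : F) : M) = σ x) (y : R ⊗[K] F) :
    incl R F (act R τ y) = act R σ (incl R F y) := by
  induction y using TensorProduct.induction_on with
  | zero => simp only [map_zero]
  | tmul r x => rw [act_tmul, incl_tmul, incl_tmul, act_tmul, h]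
  | add a b ha hb => simp only [map_add, ha, hb]

end fixed

section fields

variable {K M : Type} [Field K] [Field M] [Algebra K M]

/-- the action on the units of the field -/
def uM : (M ≃ₐ[K] M) →* MulAut Mˣ where
  toFun g := Units.mapEquiv (g : M ≃* M)
  map_one' := by
    ext y
    rfl
  map_mul' g h := by
    ext y
    rfl

theorem uM_val (g : M ≃ₐ[K] M) (x : Mˣ) : ((uM g x : Mˣ) : M) = g x := rfl

theorem ιu_uM (R : Type) [Field R] [Algebra K R] (g : M ≃ₐ[K] M) (x : Mˣ) :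
    ιu R (uM g x) = uact R g (ιu (K := K) R x) := by
  ext
  rfl

variable [FiniteDimensional K M] [IsGalois K M]

theorem norm_iff {σ : M ≃ₐ[K] M} (hσ : ∀ g, g ∈ Subgroup.zpowers σ) (x : Mˣ) (α : K)
    (hα : α ≠ 0) : nm (uM σ) (orderOf σ) x =
      Units.map (algebraMap K M : K →* M) (Units.mk0 α hα) ↔ Algebra.norm K (x : M) = α := by
  rw [← prod_eq_nm uM hσ, Units.ext_iff, Units.coe_prod]
  change (∏ g : M ≃ₐ[K] M, g (x : M)) = algebraMap K M α ↔ _
  rw [← Algebra.norm_eq_prod_automorphisms]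
  exact (algebraMap K M).injective.eq_iff

/-- Hilbert 90 for a generator -/
theorem h90_field {σ : M ≃ₐ[K] M} (hσ : ∀ g, g ∈ Subgroup.zpowers σ) :
    H90 (uM σ) (orderOf σ) := by
  intro u hu
  have : IsCyclic (M ≃ₐ[K] M) := ⟨σ, hσ⟩
  have h1 : Algebra.norm K (u : M) = 1 := by
    rw [← norm_iff hσ u 1 one_ne_zero, hu]
    ext
    simp
  obtain ⟨y, hy⟩ := groupCohomology.exists_div_of_norm_eq_one hσ h1
  refine ⟨y⁻¹, ?_⟩
  have h2 : u = y * (uM σ y)⁻¹ := by
    ext
    rw [Units.val_mul, Units.val_inv_eq_inv_val, uM_val, ← hy, div_eq_mul_inv]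
  rw [h2, map_inv, mul_comm y, mul_inv_cancel_right]

end fields

section tower

variable {K M : Type} [Field K] [Field M] [Algebra K M] [FiniteDimensional K M] [IsGalois K M]

/-- the fixed field of `σ ^ l` -/
abbrev FF (σ : M ≃ₐ[K] M) (l : ℕ) : IntermediateField K M :=
  IntermediateField.fixedField (Subgroup.zpowers (σ ^ l))

omit [FiniteDimensional K M] [IsGalois K M] in
theorem mem_FF (σ : M ≃ₐ[K] M) (l : ℕ) (x : M) : x ∈ FF σ l ↔ (σ ^ l) x = x := by
  rw [IntermediateField.mem_fixedField_iff]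
  constructor
  · intro h
    exact h _ (Subgroup.mem_zpowers _)
  · intro h f hf
    obtain ⟨k, rfl⟩ := Subgroup.mem_zpowers_iff.mp hf
    have h1 : σ ^ l ∈ MulAction.stabilizer (M ≃ₐ[K] M) x := h
    exact (MulAction.stabilizer (M ≃ₐ[K] M) x).zpow_mem h1 k

/-- `σ ^ l` over the fixed field -/
def rho (σ : M ≃ₐ[K] M) (l : ℕ) : M ≃ₐ[FF σ l] M :=
  AlgEquiv.ofRingEquiv (f := ((σ ^ l : M ≃ₐ[K] M) : M ≃+* M))
    (fun x => (mem_FF σ l (x : M)).mp x.2)

theorem rho_apply (σ : M ≃ₐ[K] M) (l : ℕ) (x : M) : rho σ l x = (σ ^ l) x := rfl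

theorem rho_res (σ : M ≃ₐ[K] M) (l : ℕ) :
    AlgEquiv.restrictScalarsHom K (rho σ l) = σ ^ l := by
  ext x
  rfl

theorem rho_gen (σ : M ≃ₐ[K] M) (l : ℕ) (g : M ≃ₐ[FF σ l] M) :
    g ∈ Subgroup.zpowers (rho σ l) := by
  have h1 : AlgEquiv.restrictScalarsHom K g ∈ (FF σ l).fixingSubgroup := by
    rw [IntermediateField.mem_fixingSubgroup_iff]
    intro x hx
    exact g.commutes ⟨x, hx⟩
  rw [IntermediateField.fixingSubgroup_fixedField] at h1
  obtain ⟨k, hk⟩ := Subgroup.mem_zpowers_iff.mp h1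
  refine Subgroup.mem_zpowers_iff.mpr ⟨k, ?_⟩
  apply AlgEquiv.restrictScalarsHom_injective K
  rw [map_zpow, rho_res, hk]

theorem rho_order (σ : M ≃ₐ[K] M) {l m : ℕ} (hlm : orderOf σ = l * m) :
    orderOf (rho σ l) = m := by
  have h0 : 0 < orderOf σ := orderOf_pos σ
  have hl : l ≠ 0 := by
    rintro rfl
    rw [hlm, zero_mul] at h0
    exact h0.ne rfl
  rw [← orderOf_injective (AlgEquiv.restrictScalarsHom K)
    (AlgEquiv.restrictScalarsHom_injective K) (rho σ l), rho_res,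
    orderOf_pow_of_dvd hl ⟨m, hlm⟩, hlm, Nat.mul_div_cancel_left _ (Nat.pos_of_ne_zero hl)]

instance FF_galois (σ : M ≃ₐ[K] M) [hc : IsCyclic (M ≃ₐ[K] M)] (l : ℕ) : IsGalois K (FF σ l) := by
  have hn : (Subgroup.zpowers (σ ^ l)).Normal := by
    refine ⟨fun n hn g => ?_⟩
    have h1 : g * n = n * g := by
      obtain ⟨s, hs⟩ := hc.exists_generator
      obtain ⟨i, rfl⟩ := Subgroup.mem_zpowers_iff.mp (hs g)
      obtain ⟨j, rfl⟩ := Subgroup.mem_zpowers_iff.mp (hs n)
      exact zpow_mul_comm s i j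
    rwa [h1, mul_inv_cancel_right]
  infer_instance

/-- the restriction of `σ` to the fixed field -/
def tau (σ : M ≃ₐ[K] M) [IsCyclic (M ≃ₐ[K] M)] (l : ℕ) : FF σ l ≃ₐ[K] FF σ l :=
  AlgEquiv.restrictNormalHom (FF σ l) σ

theorem tau_apply (σ : M ≃ₐ[K] M) [IsCyclic (M ≃ₐ[K] M)] (l : ℕ) (x : FF σ l) :
    ((tau σ l x : FF σ l) : M) = σ x :=
  AlgEquiv.restrictNormal_commutes σ (FF σ l) x

theorem tau_gen {σ : M ≃ₐ[K] M} [IsCyclic (M ≃ₐ[K] M)] (hσ : ∀ g, g ∈ Subgroup.zpowers σ) (l : ℕ)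
    (g : FF σ l ≃ₐ[K] FF σ l) : g ∈ Subgroup.zpowers (tau σ l) := by
  obtain ⟨h, rfl⟩ := AlgEquiv.restrictNormalHom_surjective (F := K) (K₁ := FF σ l) M g
  obtain ⟨i, rfl⟩ := Subgroup.mem_zpowers_iff.mp (hσ h)
  rw [map_zpow]
  exact Subgroup.zpow_mem_zpowers _ _

theorem tau_order {σ : M ≃ₐ[K] M} [IsCyclic (M ≃ₐ[K] M)] (hσ : ∀ g, g ∈ Subgroup.zpowers σ)
    {l m : ℕ} (hlm : orderOf σ = l * m) : orderOf (tau σ l) = l := by
  have h0 : 0 < orderOf σ := orderOf_pos σ
  have h1 : Module.finrank K (FF σ l) * Module.finrank (FF σ l) M = l * m := by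
    rw [Module.finrank_mul_finrank, ← IsGalois.card_aut_eq_finrank, ← hlm,
      orderOf_eq_card_of_forall_mem_zpowers hσ]
  have h2 : Module.finrank (FF σ l) M = m := by
    rw [← IsGalois.card_aut_eq_finrank, ← orderOf_eq_card_of_forall_mem_zpowers (rho_gen σ l),
      rho_order σ hlm]
  have hm : 0 < m := by
    rcases Nat.eq_zero_or_pos m with h | h
    · rw [hlm, h, mul_zero] at h0
      exact absurd h0 (lt_irrefl 0)
    · exact h
  rw [h2] at h1
  rw [orderOf_eq_card_of_forall_mem_zpowers (tau_gen hσ l), IsGalois.card_aut_eq_finrank]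
  exact Nat.eq_of_mul_eq_mul_right hm h1

theorem rho_pow (σ : M ≃ₐ[K] M) (l i : ℕ) (x : M) : (rho σ l ^ i) x = ((σ ^ l) ^ i) x := by
  induction i generalizing x with
  | zero => rfl
  | succ i ih => rw [pow_succ, pow_succ, AlgEquiv.mul_apply, AlgEquiv.mul_apply, ih, rho_apply]

theorem tau_pow (σ : M ≃ₐ[K] M) [IsCyclic (M ≃ₐ[K] M)] (l i : ℕ) (x : FF σ l) :
    (((tau σ l ^ i) x : FF σ l) : M) = (σ ^ i) x := by
  induction i generalizing x with
  | zero => rfl
  | succ i ih => rw [pow_succ, pow_succ, AlgEquiv.mul_apply, AlgEquiv.mul_apply, ih, tau_apply]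

theorem uM_nm_val (σ : M ≃ₐ[K] M) (n : ℕ) (x : Mˣ) :
    ((nm (uM σ) n x : Mˣ) : M) = ∏ i ∈ range n, (σ ^ i) (x : M) := by
  rw [nm, Units.coe_prod]
  refine prod_congr rfl fun i _ => ?_
  rw [← map_pow]
  rfl

open Vale.Agent.P022.C (Cyc tw Nm) in
/-- one step of the dévissage -/
theorem hn_tower {σ : M ≃ₐ[K] M} [IsCyclic (M ≃ₐ[K] M)] (hσ : ∀ g, g ∈ Subgroup.zpowers σ)
    {l m : ℕ} (hl : 0 < l) (hm : 0 < m) (hlm : orderOf σ = l * m) {I : Type} (R : I → Type)
    [∀ v, Field (R v)] [∀ v, Algebra K (R v)]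
    (h90 : ∀ v, H90 (uact (R v) (σ ^ l)) m)
    {J : Type} (S : J → Type) [∀ w, Field (S w)] [∀ w, Algebra (FF σ l) (S w)]
    (hS : ∀ w, ∃ (v : I) (g : R v →+* S w), ∀ x : K,
      g (algebraMap K (R v) x) = algebraMap (FF σ l) (S w) (algebraMap K (FF σ l) x))
    (ind : ∀ α : FF σ l, α ≠ 0 → (∀ w, Nm (rho σ l) m (S w) α) →
      ∃ x : M, ∏ i ∈ range m, (rho σ l ^ i) x = algebraMap (FF σ l) M α)
    (prime : ∀ β : K, β ≠ 0 → (∀ v, Nm (tau σ l) l (R v) β) →
      ∃ x : FF σ l, ∏ i ∈ range l, (tau σ l ^ i) x = algebraMap K (FF σ l) β)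
    (α : K) (hα : α ≠ 0) (hloc : ∀ v, Nm σ (l * m) (R v) α) :
    ∃ x : M, ∏ i ∈ range (l * m), (σ ^ i) x = algebraMap K M α := by
  have hlm0 : 0 < l * m := Nat.mul_pos hl hm
  have hιι : ∀ (v : I) (x : Mˣ), ιu (K := K) (R v) (uM σ x) = uact (R v) σ (ιu (R v) x) :=
    fun v x => ιu_uM (R v) σ x
  have hpow : ∀ (x : Mˣ), (uM σ ^ l) x = uM (σ ^ l) x := fun x => by rw [map_pow]
  have hpowv : ∀ (v : I), uact (R v) σ ^ l = uact (R v) (σ ^ l) := fun v => by rw [map_pow]
  -- the product for `σ ^ l` is the norm to the fixed field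
  have hrho : ∀ (k : ℕ) (x : Mˣ), nm (uM σ ^ l) k x = nm (uM (rho σ l)) k x := by
    intro k x
    rw [← map_pow]
    rfl
  suffices key : ∃ x : Mˣ, nm (uM σ) (l * m) x =
      Units.map (algebraMap K M : K →* M) (Units.mk0 α hα) by
    obtain ⟨x, hx⟩ := key
    refine ⟨x, ?_⟩
    rw [← uM_nm_val, hx]
    rfl
  refine hn_step (uM σ) (fun v => uact (R v) σ) (fun v => ιu (R v)) hιι l m ?_ ?_ ?_ ?_ _ ?_ ?_
  · -- Hilbert 90 for the field
    have h1 := h90_field (rho_gen σ l)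
    rw [rho_order σ hlm] at h1
    intro u hu
    rw [hrho] at hu
    obtain ⟨w, hw⟩ := h1 u hu
    refine ⟨w, ?_⟩
    rw [hw, ← map_pow]
    rfl
  · intro v
    rw [hpowv]
    exact h90 v
  · -- the induction hypothesis
    intro a ha hav
    rw [hpow] at ha
    have ha1 : (a : M) ∈ FF σ l := (mem_FF σ l a).mpr (congrArg Units.val ha)
    have ha0 : (⟨(a : M), ha1⟩ : FF σ l) ≠ 0 := by
      intro h
      exact a.ne_zero (congrArg Subtype.val h)
    obtain ⟨x, hx⟩ := ind ⟨(a : M), ha1⟩ ha0 fun w => by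
      obtain ⟨v, g, hg⟩ := hS w
      obtain ⟨y, hy⟩ := hav v
      obtain ⟨Φ, hΦ⟩ := exists_transfer (M := M) g hg
      refine (nm_iff (S w) (rho σ l) hm _ ha0).mpr ⟨Units.map (Φ : _ →* _) y, ?_⟩
      rw [← map_nm (uact (R v) (σ ^ l)) (uact (S w) (rho σ l))
        (Units.map (Φ : _ →* _)), ← hpowv, hy]
      · ext
        change Φ (1 ⊗ₜ (a : M)) = 1 ⊗ₜ (a : M)
        rw [hΦ, map_one]
      · intro z
        ext
        exact transfer_act hΦ (σ ^ l) (rho σ l) (fun x => rfl) _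
    have hx0 : x ≠ 0 := by
      rintro rfl
      apply a.ne_zero
      change (algebraMap (FF σ l) M) ⟨(a : M), ha1⟩ = 0
      rw [← hx]
      exact Finset.prod_eq_zero (Finset.mem_range.mpr hm) (map_zero _)
    refine ⟨Units.mk0 x hx0, ?_⟩
    rw [hrho]
    ext
    rw [uM_nm_val (rho σ l)]
    exact hx
  · -- the prime step
    intro b hb hbv
    -- `b` is in `K`
    have hb1 : ∀ g : M ≃ₐ[K] M, g (b : M) = b := by
      have h1 : σ ∈ MulAction.stabilizer (M ≃ₐ[K] M) (b : M) := congrArg Units.val hb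
      intro g
      obtain ⟨i, rfl⟩ := Subgroup.mem_zpowers_iff.mp (hσ g)
      exact (MulAction.stabilizer (M ≃ₐ[K] M) (b : M)).zpow_mem h1 i
    obtain ⟨β, hβ⟩ := (IsGalois.mem_range_algebraMap_iff_fixed (F := K) (b : M)).mpr hb1
    have hβ0 : β ≠ 0 := by
      rintro rfl
      rw [map_zero] at hβ
      exact b.ne_zero hβ.symm
    obtain ⟨x, hx⟩ := prime β hβ0 fun v => by
      obtain ⟨z, hz, hz2⟩ := hbv v
      rw [hpowv] at hz
      obtain ⟨z', hz'⟩ := mem_incl (R v) (FF σ l) (σ ^ l) (mem_FF σ l) (congrArg Units.val hz)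
      refine ⟨z', ?_⟩
      apply incl_injective (R v) (FF σ l)
      refine (incl_prod (R v) (FF σ l) (range l) _).trans ?_
      have h1 : ∀ i ∈ range l, incl (R v) (FF σ l) (tw (R v) (tau σ l ^ i) z') =
          tw (R v) (σ ^ i) (z : R v ⊗[K] M) := by
        intro i _
        rw [← hz']
        exact incl_act (R v) (FF σ l) (tau σ l ^ i) (σ ^ i) (tau_pow σ l i) z'
      rw [prod_congr rfl h1, ← nm_val, hz2, alg_tmul, incl_tmul, ιu_val, ← hβ]
      rfl
    have hx0 : (x : M) ≠ 0 := by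
      intro h0
      have h1 : x = 0 := Subtype.ext h0
      apply hβ0
      apply (algebraMap K (FF σ l)).injective
      rw [← hx, h1, map_zero]
      exact Finset.prod_eq_zero (Finset.mem_range.mpr hl) (map_zero _)
    refine ⟨Units.mk0 (x : M) hx0, ?_, ?_⟩
    · rw [hpow]
      ext
      exact (mem_FF σ l (x : M)).mp x.2
    · ext
      rw [uM_nm_val, ← hβ]
      have h2 : algebraMap K M β = algebraMap (FF σ l) M (algebraMap K (FF σ l) β) := rfl
      rw [h2, ← hx, map_prod]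
      refine prod_congr rfl fun i _ => ?_
      exact (tau_pow σ l i x).symm
  · ext
    change σ (algebraMap K M α) = algebraMap K M α
    exact σ.commutes α
  · intro v
    exact (nm_iff (R v) σ hlm0 α hα).mp (hloc v)

end tower

end Vale.Agent.P022.H964.Hn
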