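import Mathlib

/-!
# Theta-like series, the upper half plane, cusps

`ser a q τ = ∑ v, a v * exp (2 π i τ q v)` for coefficients `a` and exponents `q v ≥ 0` such that
the series converges absolutely: it is holomorphic on the upper half plane and bounded at `i ∞`.
A set of functions on the upper half plane that is stable under the slash action of `S`, `T`,
`T⁻¹` is stable under `SL(2, ℤ)`. A holomorphic function invariant under `Gamma1 N`, all of whose
`SL(2, ℤ)`-translates are bounded at `i ∞`, is a modular form for `Gamma1 N`.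
-/

open UpperHalfPlane hiding I
open Filter Topology Matrix.SpecialLinearGroup CongruenceSubgroup Complex
open scoped MatrixGroups ModularForm Manifold Real

noncomputable section

namespace Vale.Agent.P022.H964

variable {α : Type*}

/-- The series `∑ v, a v * exp (2 π i τ q v)`. -/
def ser (a : α → ℂ) (q : α → ℝ) (τ : ℂ) : ℂ := ∑' v, a v * cexp (2 * π * I * τ * (q v : ℂ))

/-- Absolute convergence on the upper half plane, and nonnegative exponents. -/
structure Good (a : α → ℂ) (q : α → ℝ) : Prop where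
  nonneg : ∀ v, 0 ≤ q v
  sum : ∀ A : ℝ, 0 < A → Summable fun v => ‖a v‖ * Real.exp (-(2 * π * A * q v))

variable {a : α → ℂ} {q : α → ℝ}

theorem norm_exp (τ : ℂ) (x : ℝ) :
    ‖cexp (2 * π * I * τ * (x : ℂ))‖ = Real.exp (-(2 * π * τ.im * x)) := by
  rw [Complex.norm_exp]
  congr 1
  have : (2 * π * I * τ * (x : ℂ) : ℂ) = ((2 * π * x : ℝ) : ℂ) * (I * τ) := by
    push_cast; ring
  rw [this, Complex.re_ofReal_mul]
  simp
  ring

theorem norm_term_le (h : Good a q) {A : ℝ} {τ : ℂ} (hτ : A ≤ τ.im) (v : α) :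
    ‖a v * cexp (2 * π * I * τ * (q v : ℂ))‖ ≤ ‖a v‖ * Real.exp (-(2 * π * A * q v)) := by
  rw [norm_mul, norm_exp]
  refine mul_le_mul_of_nonneg_left (Real.exp_le_exp.2 ?_) (norm_nonneg _)
  have h1 := h.nonneg v
  have h2 : 2 * π * A * q v ≤ 2 * π * τ.im * q v := by
    refine mul_le_mul_of_nonneg_right ?_ h1
    exact mul_le_mul_of_nonneg_left hτ (by positivity)
  linarith

theorem summable_term (h : Good a q) {τ : ℂ} (hτ : 0 < τ.im) :
    Summable fun v => a v * cexp (2 * π * I * τ * (q v : ℂ)) :=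
  Summable.of_norm_bounded (h.sum τ.im hτ) fun v => norm_term_le h le_rfl v

theorem differentiableOn_ser (h : Good a q) :
    DifferentiableOn ℂ (ser a q) {z : ℂ | 0 < z.im} := by
  intro z hz
  have hz' : 0 < z.im := hz
  have hU : IsOpen {w : ℂ | z.im / 2 < w.im} := isOpen_lt continuous_const Complex.continuous_im
  have h1 : DifferentiableOn ℂ (fun w => ∑' v, a v * cexp (2 * π * I * w * (q v : ℂ)))
      {w : ℂ | z.im / 2 < w.im} := by
    refine differentiableOn_tsum_of_summable_norm (h.sum (z.im / 2) (by positivity)) ?_ hU ?_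
    · intro v
      fun_prop
    · intro v w hw
      exact norm_term_le h (le_of_lt hw) v
  have h2 : DifferentiableAt ℂ (ser a q) z :=
    h1.differentiableAt (hU.mem_nhds (by simp only [Set.mem_ofPred_eq]; linarith))
  exact h2.differentiableWithinAt

/-- The series as a function on the upper half plane. -/
def serH (a : α → ℂ) (q : α → ℝ) (τ : ℍ) : ℂ := ser a q (τ : ℂ)

theorem mdiff (h : Good a q) : MDifferentiable 𝓘(ℂ) 𝓘(ℂ) (serH a q) := by
  rw [UpperHalfPlane.mdifferentiable_iff]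
  refine (differentiableOn_ser h).congr fun z hz => ?_
  simp only [Function.comp, serH]
  rw [UpperHalfPlane.ofComplex_apply_of_im_pos hz]

theorem bdd (h : Good a q) : IsBoundedAtImInfty (serH a q) := by
  rw [UpperHalfPlane.isBoundedAtImInfty_iff]
  refine ⟨∑' v, ‖a v‖ * Real.exp (-(2 * π * 1 * q v)), 1, fun τ hτ => ?_⟩
  exact tsum_of_norm_bounded (h.sum 1 one_pos).hasSum fun v => norm_term_le h hτ v

/-- A set of functions stable under `S`, `T` and `T⁻¹` is stable under `SL(2, ℤ)`. -/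
theorem stable {k : ℤ} {V : Set (ℍ → ℂ)} (hS : ∀ f ∈ V, f ∣[k] ModularGroup.S ∈ V)
    (hT : ∀ f ∈ V, f ∣[k] ModularGroup.T ∈ V) (hT' : ∀ f ∈ V, f ∣[k] ModularGroup.T⁻¹ ∈ V)
    (A : SL(2, ℤ)) : ∀ f ∈ V, f ∣[k] A ∈ V := by
  have hA : A ∈ Subgroup.closure {ModularGroup.S, ModularGroup.T} := by
    rw [_root_.SpecialLinearGroup.SL2Z_generators]; exact Subgroup.mem_top _
  induction hA using Subgroup.closure_induction'' with
  | mem x hx =>
    rcases hx with rfl | hx
    · exact hS
    · rw [Set.mem_singleton_iff] at hx; subst hx; exact hT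
  | inv_mem x hx =>
    rcases hx with rfl | hx
    · intro f hf
      have h1 : (ModularGroup.S⁻¹ : SL(2, ℤ)) =
          ModularGroup.S * ModularGroup.S * ModularGroup.S := by decide
      rw [h1, SlashAction.slash_mul, SlashAction.slash_mul]
      exact hS _ (hS _ (hS _ hf))
    · rw [Set.mem_singleton_iff] at hx; subst hx; exact hT'
  | one => intro f hf; rwa [SlashAction.slash_one]
  | mul x y _ _ hx hy =>
    intro f hf
    rw [SlashAction.slash_mul]
    exact hy _ (hx _ hf)

/-- A modular form for `Gamma1 N`. -/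
def mk {N : ℕ} [NeZero N] {k : ℤ} (f : ℍ → ℂ) (hf : MDifferentiable 𝓘(ℂ) 𝓘(ℂ) f)
    (hb : ∀ A : SL(2, ℤ), IsBoundedAtImInfty (f ∣[k] A))
    (hinv : ∀ γ ∈ Gamma1 N, f ∣[k] γ = f) : ModularForm ((Gamma1 N).map (mapGL ℝ)) k where
  toFun := f
  slash_action_eq' := by
    rintro _ ⟨γ, hγ, rfl⟩
    exact hinv γ hγ
  holo' := hf
  bdd_at_cusps' {c} hc := by
    rw [Subgroup.IsArithmetic.isCusp_iff_isCusp_SL2Z] at hc
    rw [OnePoint.isBoundedAt_iff_forall_SL2Z hc]
    exact fun γ _ => hb γ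

@[simp] theorem mk_coe {N : ℕ} [NeZero N] {k : ℤ} (f : ℍ → ℂ)
    (hf : MDifferentiable 𝓘(ℂ) 𝓘(ℂ) f) (hb : ∀ A : SL(2, ℤ), IsBoundedAtImInfty (f ∣[k] A))
    (hinv : ∀ γ ∈ Gamma1 N, f ∣[k] γ = f) : ((mk f hf hb hinv : ModularForm _ k) : ℍ → ℂ) = f :=
  rfl

end Vale.Agent.P022.H964
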